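import Mathlib

/-! # P227/M, StmtKey (helper652), part 2: pointwise algebra (no `τ⁻¹` in the identity). -/

open Matrix

namespace Vale.Agent.P254.SL.K652

set_option linter.unusedSectionVars false

variable {ι : Type*} [Fintype ι] [DecidableEq ι]

theorem tr_sq_nonneg_of_symm {S : Matrix ι ι ℝ} (hS : Sᵀ = S) : 0 ≤ (S * S).trace := by
  have : (S * S).trace = ∑ i, ∑ j, (S i j) ^ 2 := by
    simp only [Matrix.trace, Matrix.diag, Matrix.mul_apply]
    refine Finset.sum_congr rfl fun i _ => Finset.sum_congr rfl fun j _ => ?_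
    rw [show S j i = S i j from by rw [← Matrix.transpose_apply S i j, hS]]
    ring
  rw [this]
  positivity

/-- (P1) -/
theorem p1 {τ A G Gi X : Matrix ι ι ℝ} (_h1 : Gi * G = 1) (h2 : G * Gi = 1) (hτ : τ = G * Gᵀ)
    (hA : A = Giᵀ * Gi) : 0 ≤ (X * X).trace + (A * X * τ * Xᵀ).trace := by
  set R := Gi * X * G with hR
  have e1 : (R * R).trace = (X * X).trace := by
    have : R * R = Gi * (X * X * G) := by
      rw [hR]
      calc Gi * X * G * (Gi * X * G) = Gi * X * (G * Gi) * X * G := by noncomm_ring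
        _ = Gi * (X * X * G) := by rw [h2]; noncomm_ring
    rw [this, Matrix.trace_mul_comm, Matrix.mul_assoc, h2, Matrix.mul_one]
  have e2 : (R * Rᵀ).trace = (A * X * τ * Xᵀ).trace := by
    have : R * Rᵀ = Gi * (X * τ * Xᵀ * Giᵀ) := by
      rw [hR, hτ, Matrix.transpose_mul, Matrix.transpose_mul]
      noncomm_ring
    rw [this, Matrix.trace_mul_comm, hA, Matrix.mul_assoc (X * τ * Xᵀ), Matrix.trace_mul_comm]
    congr 1
    noncomm_ring
  have h3 : 0 ≤ ((R + Rᵀ) * (R + Rᵀ)).trace :=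
    tr_sq_nonneg_of_symm (by rw [Matrix.transpose_add, Matrix.transpose_transpose, add_comm])
  have h4 : ((R + Rᵀ) * (R + Rᵀ)).trace = 2 * (R * R).trace + 2 * (R * Rᵀ).trace := by
    rw [Matrix.add_mul, Matrix.mul_add, Matrix.mul_add, Matrix.trace_add, Matrix.trace_add,
      Matrix.trace_add, Matrix.trace_mul_comm Rᵀ R,
      show (Rᵀ * Rᵀ).trace = (R * R).trace by
        rw [← Matrix.transpose_mul, Matrix.trace_transpose]]
    ring
  rw [← e1, ← e2]
  linarith

/-- (P2) `tr (M²) ≥ 0` if `τ M` is symmetric -/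
theorem p2 {τ A G Gi M : Matrix ι ι ℝ} (h1 : Gi * G = 1) (h2 : G * Gi = 1) (hτ : τ = G * Gᵀ)
    (hA : A = Giᵀ * Gi) (hM : (τ * M)ᵀ = τ * M) : 0 ≤ (M * M).trace := by
  have h := p1 (X := Mᵀ) h1 h2 hτ hA
  have hAτ : A * τ = 1 := by
    rw [hA, hτ]
    calc Giᵀ * Gi * (G * Gᵀ) = Giᵀ * (Gi * G) * Gᵀ := by noncomm_ring
      _ = 1 := by rw [h1, Matrix.mul_one, ← Matrix.transpose_mul, h2, Matrix.transpose_one]
  have hτs : τᵀ = τ := by rw [hτ, Matrix.transpose_mul, Matrix.transpose_transpose]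
  have e : A * Mᵀ * τ * (Mᵀ)ᵀ = M * M := by
    have : Mᵀ * τ = τ * M := by rw [← hM, Matrix.transpose_mul, hτs]
    rw [Matrix.mul_assoc A, this, Matrix.transpose_transpose, ← Matrix.mul_assoc, hAτ,
      Matrix.one_mul]
  rw [e, show (Mᵀ * Mᵀ).trace = (M * M).trace by
        rw [← Matrix.transpose_mul, Matrix.trace_transpose]] at h
  linarith

section alg

variable {τ N : Matrix ι ι ℝ} {t M X Y : ι → Matrix ι ι ℝ}

theorem ysym (hM : ∀ a b c, M a b c = M b a c)
    (SY : ∀ a b c, ∑ e, τ a e * t e b c = ∑ e, τ b e * t e a c)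
    (hX : ∀ e, X e = t e * N + τ * M e) (hY : ∀ a, Y a = ∑ e, τ a e • X e) (a b d : ι) :
    Y a b d = Y b a d := by
  have h : ∀ a b d, Y a b d = ∑ f, (∑ e, τ a e * t e b f) * N f d +
      ∑ e, ∑ f, τ a e * τ b f * M e f d := by
    intro a b d
    rw [hY]
    simp only [Matrix.sum_apply, Matrix.smul_apply, hX, Matrix.add_apply, Matrix.mul_apply,
      smul_eq_mul, mul_add, Finset.sum_add_distrib]
    congr 1
    · simp only [Finset.mul_sum, Finset.sum_mul]
      rw [Finset.sum_comm]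
      exact Finset.sum_congr rfl fun i _ => Finset.sum_congr rfl fun j _ => by ring
    · simp only [Finset.mul_sum]
      exact Finset.sum_congr rfl fun i _ => Finset.sum_congr rfl fun j _ => by ring
  rw [h, h]
  congr 1
  · exact Finset.sum_congr rfl fun f _ => by rw [SY a b f]
  · rw [Finset.sum_comm]
    exact Finset.sum_congr rfl fun i _ => Finset.sum_congr rfl fun j _ => by
      rw [hM i j d]
      ring

/-- the pointwise identity -/
theorem alg (hτ : τᵀ = τ) (hN : Nᵀ = N) (ht : ∀ e, (t e)ᵀ = t e) (hMs : ∀ e, (M e)ᵀ = M e)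
    (hM : ∀ a b c, M a b c = M b a c)
    (SY : ∀ a b c, ∑ e, τ a e * t e b c = ∑ e, τ b e * t e a c)
    (hX : ∀ e, X e = t e * N + τ * M e) (hY : ∀ a, Y a = ∑ e, τ a e • X e) :
    (∑ a, ∑ b, ∑ d, Y a b d * ∑ e, τ d e * M e a b) + (∑ a, ∑ b, ∑ d, Y d a b * X a b d)
      + (∑ a, ∑ b, ∑ d, ∑ e, t a d e * X e a b * (τ * N) b d)
      = ∑ a, (Y a * X a).trace + ∑ a, ∑ c, (X c * τ * (X a)ᵀ) a c := by
  have ys := ysym hM SY hX hY
  have T1 : (∑ a, ∑ b, ∑ d, Y a b d * ∑ e, τ d e * M e a b) =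
      ∑ a, ∑ c, (X c * τ * (M a * τ)) a c := by
    refine Finset.sum_congr rfl fun a _ => ?_
    have h1 : ∀ b d, ∑ e, τ d e * M e a b = (τ * M a) d b := by
      intro b d
      rw [Matrix.mul_apply]
      exact Finset.sum_congr rfl fun e _ => by rw [hM e a b]
    have h2 : ∀ b, ∑ d, Y a b d * ∑ e, τ d e * M e a b = ∑ c, (X c * (τ * M a)) a b * τ b c := by
      intro b
      simp only [h1]
      have : ∀ d, Y a b d * (τ * M a) d b = Y b a d * (τ * M a) d b := fun d => by rw [ys a b d]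
      simp only [this]
      rw [← Matrix.mul_apply, hY b, Finset.sum_mul, Matrix.sum_apply]
      refine Finset.sum_congr rfl fun c _ => ?_
      rw [Matrix.smul_mul, Matrix.smul_apply, smul_eq_mul, mul_comm]
    simp only [h2]
    rw [Finset.sum_comm]
    refine Finset.sum_congr rfl fun c _ => ?_
    rw [← Matrix.mul_apply]
    noncomm_ring
  have T2 : (∑ a, ∑ b, ∑ d, Y d a b * X a b d) = ∑ a, (Y a * X a).trace := by
    refine Finset.sum_congr rfl fun a _ => ?_
    simp only [Matrix.trace, Matrix.diag, Matrix.mul_apply]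
    rw [Finset.sum_comm]
    exact Finset.sum_congr rfl fun d _ => Finset.sum_congr rfl fun b _ => by rw [ys d a b]
  have T3 : (∑ a, ∑ b, ∑ d, ∑ e, t a d e * X e a b * (τ * N) b d) =
      ∑ a, ∑ c, (X c * τ * (N * t a)) a c := by
    refine Finset.sum_congr rfl fun a _ => ?_
    have h1 : ∀ c, (X c * τ * (N * t a)) a c = ∑ b, ∑ d, t a d c * X c a b * (τ * N) b d := by
      intro c
      rw [show X c * τ * (N * t a) = X c * ((τ * N) * t a) by noncomm_ring, Matrix.mul_apply]
      refine Finset.sum_congr rfl fun b _ => ?_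
      rw [Matrix.mul_apply, Finset.mul_sum]
      exact Finset.sum_congr rfl fun d _ => by ring
    simp only [h1]
    rw [Finset.sum_congr rfl fun b (_ : b ∈ Finset.univ) => Finset.sum_comm, Finset.sum_comm]
  rw [T1, T2, T3]
  have h4 : ∀ a, (X a)ᵀ = M a * τ + N * t a := by
    intro a
    rw [hX, Matrix.transpose_add, Matrix.transpose_mul, Matrix.transpose_mul, hN, ht, hτ, hMs]
    exact add_comm _ _
  simp only [h4, Matrix.mul_add, Matrix.add_apply, Finset.sum_add_distrib]
  ring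

/-- positivity of the right hand side -/
theorem pos {G Gi : Matrix ι ι ℝ} (h1 : Gi * G = 1) (h2 : G * Gi = 1) (hG : τ = G * Gᵀ)
    (hM : ∀ a b c, M a b c = M b a c)
    (SY : ∀ a b c, ∑ e, τ a e * t e b c = ∑ e, τ b e * t e a c)
    (hX : ∀ e, X e = t e * N + τ * M e) (hY : ∀ a, Y a = ∑ e, τ a e • X e) :
    0 ≤ ∑ a, (Y a * X a).trace + ∑ a, ∑ c, (X c * τ * (X a)ᵀ) a c := by
  have ys := ysym hM SY hX hY
  set A := Giᵀ * Gi with hA
  have hAτ : A * τ = 1 := by
    rw [hA, hG]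
    calc Giᵀ * Gi * (G * Gᵀ) = Giᵀ * (Gi * G) * Gᵀ := by noncomm_ring
      _ = 1 := by rw [h1, Matrix.mul_one, ← Matrix.transpose_mul, h2, Matrix.transpose_one]
  have hAY : ∀ a c d, (A * Y a) c d = X c a d := by
    intro a c d
    rw [Matrix.mul_apply]
    have e1 : ∀ b, A c b * Y a b d = ∑ e, A c b * τ b e * X e a d := by
      intro b
      rw [ys a b d, hY b, Matrix.sum_apply, Finset.mul_sum]
      exact Finset.sum_congr rfl fun e _ => by rw [Matrix.smul_apply, smul_eq_mul, mul_assoc]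
    simp only [e1]
    rw [Finset.sum_comm]
    have e2 : ∀ e, ∑ b, A c b * τ b e * X e a d = (1 : Matrix ι ι ℝ) c e * X e a d := by
      intro e
      rw [← Finset.sum_mul, ← Matrix.mul_apply, hAτ]
    simp only [e2, Matrix.one_apply, ite_mul, one_mul, zero_mul, Finset.sum_ite_eq,
      Finset.mem_univ, if_true]
  have s2 : ∀ a, ∑ c, (X c * τ * (X a)ᵀ) a c = (A * Y a * τ * (X a)ᵀ).trace := by
    intro a
    rw [Matrix.mul_assoc (A * Y a), Matrix.trace]
    refine Finset.sum_congr rfl fun c _ => ?_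
    rw [Matrix.diag_apply, Matrix.mul_assoc (X c), Matrix.mul_apply, Matrix.mul_apply]
    exact Finset.sum_congr rfl fun d _ => by rw [hAY]
  have hYX : ∀ (L : Matrix ι ι ℝ → Matrix ι ι ℝ → ℝ), (∀ c P Q, L (c • P) Q = c * L P Q) →
      (∀ c P Q, L P (c • Q) = c * L P Q) →
      (∀ (f : ι → Matrix ι ι ℝ) Q, L (∑ i, f i) Q = ∑ i, L (f i) Q) →
      (∀ (f : ι → Matrix ι ι ℝ) P, L P (∑ i, f i) = ∑ i, L P (f i)) →
      ∑ a, L (Y a) (X a) = ∑ k, L (∑ e, G e k • X e) (∑ e, G e k • X e) := by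
    intro L l1 l2 l3 l4
    have e1 : ∀ a, L (Y a) (X a) = ∑ e, ∑ k, G a k * G e k * L (X e) (X a) := by
      intro a
      rw [hY, l3]
      refine Finset.sum_congr rfl fun e _ => ?_
      rw [l1, ← Finset.sum_mul]
      congr 1
      rw [hG, Matrix.mul_apply]
      rfl
    have e2 : ∀ k, L (∑ e, G e k • X e) (∑ e, G e k • X e) =
        ∑ a, ∑ e, G a k * G e k * L (X e) (X a) := by
      intro k
      rw [l4]
      refine Finset.sum_congr rfl fun a _ => ?_
      rw [l2, l3, Finset.mul_sum]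
      refine Finset.sum_congr rfl fun e _ => ?_
      rw [l1]
      ring
    simp only [e1, e2]
    rw [Finset.sum_congr rfl fun a (_ : a ∈ Finset.univ) => Finset.sum_comm, Finset.sum_comm]
  have s1 := hYX (fun P Q => (P * Q).trace) (by simp) (by simp) (by
    intro f Q; simp [Finset.sum_mul, Matrix.trace_sum]) (by
    intro f P; simp [Finset.mul_sum, Matrix.trace_sum])
  have s3 := hYX (fun P Q => (A * P * τ * Qᵀ).trace) (by simp) (by simp) (by
    intro f Q; simp [Finset.sum_mul, Finset.mul_sum, Matrix.trace_sum]) (by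
    intro f P; simp [Finset.mul_sum, Matrix.trace_sum, Matrix.transpose_sum])
  simp only [s2]
  rw [s1, s3, ← Finset.sum_add_distrib]
  exact Finset.sum_nonneg fun k _ => p1 h1 h2 hG hA

end alg

end Vale.Agent.P254.SL.K652
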