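import Vale.Agent.P254.SL.Gap4
import Vale.Agent.P254.S2.Ifc

/-! # P254/SL: `StmtBL` of `S2/Ifc.lean` (helper700). -/

open MeasureTheory

namespace Vale.Agent.P254.SL.Gap

open Vale.Agent.P227.M

variable {n : ℕ}

/-- Brascamp-Lieb for bounded Lipschitz functions, `MMc` form -/
theorem gap_mmc {ψ V F : E n → ℝ} {c C M c1 C1 K B0 : ℝ} (hV : Reg V c1 C1) (h : MC.MMc ψ V c C M)
    (hF : ∀ x y, |F x - F y| ≤ K * ‖x - y‖) (hB0 : ∀ x, |F x| ≤ B0) :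
    Ex V (fun x => F x ^ 2) - (Ex V F) ^ 2 ≤ Ex V (S2.gam ψ F) :=
  gap h.c_pos h.C2 h.lower h.lip h.ma hV.integrable_exp hV.cont hF hB0

theorem stmtBL : S2.StmtBL := by
  intro n ψ V c C M c1 C1 hV h i j
  exact gap_mmc hV h (fun x y => tau_lip' h.c_pos h.C2 h.lower h.lip x y i j)
    (fun x => abs_inv_le' h.c_pos h.C2 h.lower x i j)

end Vale.Agent.P254.SL.Gap
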