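import Vale.Agent.P254.SL.Dat652

/-! # P254/SL, S2b (helper652): flat Bochner and the identity (K1) for `τ`, cut-off functions. -/

open MeasureTheory Filter
open scoped Topology NNReal
open Vale.Agent.P227.M (E ei pd hess qf Reg Test)

namespace Vale.Agent.P254.SL.K652

variable {n : ℕ} {V : E n → ℝ} {τ : E n → Matrix (Fin n) (Fin n) ℝ}

/-- bounded Lipschitz -/
def BL (f : E n → ℝ) : Prop := (∃ K, LipschitzWith K f) ∧ ∃ B, ∀ x, |f x| ≤ B

theorem BL.lm {f : E n → ℝ} (hf : BL f) : LM f := LM.of_lip hf.1 hf.2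

theorem LC.blm {f g : E n → ℝ} (hf : LC f) (hg : BL g) : LC (fun x => f x * g x) :=
  hf.mul_lip hg.1 hg.2

theorem Dat.bl (h : Dat V τ) (a b : Fin n) : BL (fun x => τ x a b) := ⟨h.lip a b, h.bdd a b⟩

/-- flat Bochner for Lipschitz compactly supported fields, one pair of indices -/
theorem Dat.boch (h : Dat V τ) {s r : E n → ℝ} (hs : LC s) (hr : LC r) (a b : Fin n) :
    I V (fun x => (pd a V x * s x - pd a s x) * (pd b V x * r x - pd b r x)) =
      I V (fun x => pd a (pd b V) x * s x * r x) + I V (fun x => pd a r x * pd b s x) := by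
  have hc := h.c1
  have cV : ∀ c, ContDiff ℝ 1 (pd c V) := fun c => smooth_c1 (smooth_pd h.hV c)
  have lVr : LC (fun x => pd b V x * r x) := by
    have := hr.mul_c1 (cV b)
    simpa only [mul_comm] using this
  have d1 : BC (fun x => (pd a V x * s x - pd a s x) * (pd b V x * r x)) :=
    ((h.bcV hs.bc a).sub (hs.pd a)).mul lVr.bc
  have d2 : BC (fun x => pd b r x * (pd a V x * s x - pd a s x)) :=
    (hr.pd b).mul ((h.bcV hs.bc a).sub (hs.pd a))
  have d3 : BC (fun x => s x * (pd b V x * pd a r x)) := hs.bc.mul (h.bcV (hr.pd a) b)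
  have d4 : BC (fun x => pd a (pd b V) x * s x * r x) := by
    have := (hs.bc.mul hr.bc).mul_cont (smooth_pd (smooth_pd h.hV b) a).continuous
    refine (show (fun x => pd a (pd b V) x * s x * r x) = fun x => s x * r x * pd a (pd b V) x from ?_) ▸ this
    funext x; ring
  have d5 : BC (fun x => pd a r x * pd b s x) := (hr.pd a).mul (hs.pd b)
  have e1 : I V (fun x => (pd a V x * s x - pd a s x) * (pd b V x * r x - pd b r x)) =
      I V (fun x => (pd a V x * s x - pd a s x) * (pd b V x * r x)) -
      I V (fun x => pd b r x * (pd a V x * s x - pd a s x)) := by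
    rw [← I_sub hc d1 d2]
    exact I_congr (ae_of_all _ fun x => by ring)
  have e2 : I V (fun x => (pd a V x * s x - pd a s x) * (pd b V x * r x)) =
      I V (fun x => pd a (pd b V) x * s x * r x) + I V (fun x => s x * (pd b V x * pd a r x)) := by
    rw [← ibp_d hc hs lVr.lm a, ← I_add hc d4 d3]
    refine I_congr ?_
    filter_upwards [hr.ae] with x hx
    rw [pd_mul (smooth_diff (smooth_pd h.hV b) x) hx]
    ring
  have e3 : I V (fun x => pd b r x * (pd a V x * s x - pd a s x)) =
      I V (fun x => s x * (pd b V x * pd a r x)) - I V (fun x => pd a r x * pd b s x) := by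
    rw [nul_w hc hr hs b a, ← I_sub hc d3 d5]
    exact I_congr (ae_of_all _ fun x => by ring)
  rw [e1, e2, e3]
  ring

/-- a bump equal to `1` near the support of `g` -/
theorem exists_bump {g : E n → ℝ} (hg : HasCompactSupport g) :
    ∃ χ : E n → ℝ, LC χ ∧ ∀ x ∈ tsupport g, χ =ᶠ[𝓝 x] fun _ => (1 : ℝ) := by
  obtain ⟨R, hR⟩ := hg.isCompact.isBounded.subset_closedBall (0 : E n)
  let χ : ContDiffBump (0 : E n) := ⟨max R 1 + 1, max R 1 + 2, by positivity, by linarith⟩
  refine ⟨fun x => χ x, LC.of_contDiff χ.contDiff χ.hasCompactSupport, fun x hx => ?_⟩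
  have : x ∈ Metric.ball (0 : E n) (max R 1 + 1) := by
    have := hR hx
    rw [Metric.mem_closedBall] at this
    rw [Metric.mem_ball]
    linarith [le_max_left R 1]
  exact χ.eventuallyEq_one_of_mem_ball this

theorem pd_zero_of_notMem {g : E n → ℝ} {x : E n} (hx : x ∉ tsupport g) (a : Fin n) :
    pd a g x = 0 := by
  have h : tsupport (fun y => fderiv ℝ g y (ei a)) ⊆ tsupport g :=
    tsupport_fderiv_apply_subset ℝ (ei a) (f := g)
  exact image_eq_zero_of_notMem_tsupport (fun h' => hx (h h'))

/-- Bochner with a bounded Lipschitz first factor -/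
theorem Dat.bochM (h : Dat V τ) {f g : E n → ℝ} (hf : BL f) (hg : LC g) (b c : Fin n) :
    I V (fun x => (pd b V x * f x - pd b f x) * (pd c V x * g x - pd c g x)) =
      I V (fun x => pd b (pd c V) x * f x * g x) + I V (fun x => pd b g x * pd c f x) := by
  obtain ⟨χ, hχ, hχ1⟩ := exists_bump hg.2
  have hfχ : LC (fun x => χ x * f x) := hχ.blm hf
  have key := h.boch hfχ hg b c
  have hev : ∀ x ∈ tsupport g, (fun y => χ y * f y) =ᶠ[𝓝 x] f := by
    intro x hx
    filter_upwards [hχ1 x hx] with y hy
    rw [hy, one_mul]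
  have e1 : (fun x => (pd b V x * (χ x * f x) - pd b (fun y => χ y * f y) x) *
      (pd c V x * g x - pd c g x)) =
      fun x => (pd b V x * f x - pd b f x) * (pd c V x * g x - pd c g x) := by
    funext x
    by_cases hx : x ∈ tsupport g
    · have h1 := hev x hx
      have h2 : pd b (fun y => χ y * f y) x = pd b f x := by
        unfold Vale.Agent.P227.M.pd
        rw [h1.fderiv_eq]
      have h3 : χ x * f x = f x := h1.self_of_nhds
      rw [h2, h3]
    · rw [pd_zero_of_notMem hx, image_eq_zero_of_notMem_tsupport hx]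
      ring
  have e2 : (fun x => pd b (pd c V) x * (χ x * f x) * g x) =
      fun x => pd b (pd c V) x * f x * g x := by
    funext x
    by_cases hx : x ∈ tsupport g
    · have h3 : χ x * f x = f x := (hev x hx).self_of_nhds
      rw [h3]
    · rw [image_eq_zero_of_notMem_tsupport hx]
      ring
  have e3 : (fun x => pd b g x * pd c (fun y => χ y * f y) x) = fun x => pd b g x * pd c f x := by
    funext x
    by_cases hx : x ∈ tsupport g
    · have h2 : pd c (fun y => χ y * f y) x = pd c f x := by
        unfold Vale.Agent.P227.M.pd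
        rw [(hev x hx).fderiv_eq]
      rw [h2]
    · rw [pd_zero_of_notMem hx]
      ring
  rw [e1, e2, e3] at key
  exact key

theorem BC.congr {f g : E n → ℝ} (hf : BC f) (h : ∀ x, f x = g x) : BC g := by
  rw [← funext h]; exact hf

theorem lm_coord (a : Fin n) : LM (fun x : E n => x a) := LM.of_c1 (by fun_prop)

theorem pd_coord (a c : Fin n) (x : E n) : pd c (fun y : E n => y a) x = if a = c then 1 else 0 := by
  have h : HasFDerivAt (fun y : E n => y a) (EuclideanSpace.proj (𝕜 := ℝ) a) x :=
    (EuclideanSpace.proj (𝕜 := ℝ) a).hasFDerivAt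
  unfold Vale.Agent.P227.M.pd
  rw [h.fderiv]
  simp [Vale.Agent.P227.M.ei]

/-- (K1) -/
theorem Dat.K1 (h : Dat V τ) {g : E n → ℝ} (hg : LC g) (a i : Fin n) :
    I V (fun x => ∑ b, ∑ c, pd b (pd c V) x * τ x a b * (g x * τ x i c)) =
      I V (fun x => g x * τ x i a)
      - I V (fun x => g x * ∑ b, ∑ c, pd b (fun y => τ y i c) x * pd c (fun y => τ y a b) x)
      - I V (fun x => ∑ b, pd b g x * D τ b (fun y => τ y i a) x) := by
  have hc := h.c1
  have lg : ∀ c, LC (fun x => g x * τ x i c) := fun c => hg.blm (h.bl i c)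
  have b1 : ∀ b c, BC (fun x => (pd b V x * τ x a b - pd b (fun y => τ y a b) x) *
      (pd c V x * (g x * τ x i c) - pd c (fun y => g y * τ y i c) x)) := by
    intro b c
    have hq : BC (fun x => pd c V x * (g x * τ x i c) - pd c (fun y => g y * τ y i c) x) :=
      (h.bcV (lg c).bc c).sub ((lg c).pd c)
    have h1 := (h.bcV hq b).mul_cont (h.cont a b)
    have h2 := (h.lm a b).mpd _ hq b
    exact (h1.sub h2).congr fun x => by ring
  have b2 : ∀ b c, BC (fun x => pd b (pd c V) x * τ x a b * (g x * τ x i c)) := by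
    intro b c
    have h1 := ((lg c).bc.mul_cont (smooth_pd (smooth_pd h.hV c) b).continuous).mul_cont (h.cont a b)
    exact h1.congr fun x => by ring
  have b3 : ∀ b c, BC (fun x => pd b (fun y => g y * τ y i c) x * pd c (fun y => τ y a b) x) :=
    fun b c => (h.lm a b).mpd _ ((lg c).pd b) c
  have key : ∀ b c, I V (fun x => pd b (pd c V) x * τ x a b * (g x * τ x i c)) =
      I V (fun x => (pd b V x * τ x a b - pd b (fun y => τ y a b) x) *
        (pd c V x * (g x * τ x i c) - pd c (fun y => g y * τ y i c) x)) -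
      I V (fun x => pd b (fun y => g y * τ y i c) x * pd c (fun y => τ y a b) x) := by
    intro b c
    have := h.bochM (h.bl a b) (lg c) b c
    linarith
  rw [I_sum2 hc b2]
  simp only [key, Finset.sum_sub_distrib]
  rw [← I_sum2 hc b1, ← I_sum2 hc b3]
  have e1 : I V (fun x => ∑ b, ∑ c, (pd b V x * τ x a b - pd b (fun y => τ y a b) x) *
      (pd c V x * (g x * τ x i c) - pd c (fun y => g y * τ y i c) x)) =
      I V (fun x => g x * τ x i a) := by
    have e2 : I V (fun x => g x * τ x i a) = I V (fun x => Ds τ i g x * x a) := by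
      rw [← h.ibp_D hg (lm_coord a) i]
      refine I_congr (ae_of_all _ fun x => ?_)
      simp only [D, pd_coord, mul_ite, mul_one, mul_zero, Finset.sum_ite_eq, Finset.mem_univ,
        if_true]
    rw [e2]
    refine I_congr ?_
    filter_upwards [h.st, h.sumD hg i] with x hx1 hx2
    rw [← Finset.sum_mul_sum, hx1 a, hx2, mul_comm]
  have bg : BC (fun x => g x * ∑ b, ∑ c, pd b (fun y => τ y i c) x * pd c (fun y => τ y a b) x) := by
    have : BC (fun x => ∑ b, ∑ c, g x * pd b (fun y => τ y i c) x * pd c (fun y => τ y a b) x) :=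
      BC.sum' fun b => BC.sum' fun c => (h.lm a b).mpd _ ((h.lm i c).mpd _ hg.bc b) c
    refine this.congr fun x => ?_
    rw [Finset.mul_sum]
    refine Finset.sum_congr rfl fun b _ => ?_
    rw [Finset.mul_sum]
    exact Finset.sum_congr rfl fun c _ => by ring
  have bD : BC (fun x => ∑ b, pd b g x * D τ b (fun y => τ y i a) x) := by
    refine BC.sum' fun b => ?_
    have : BC (fun x => ∑ e, pd b g x * τ x b e * pd e (fun y => τ y i a) x) :=
      BC.sum' fun e => (h.lm i a).mpd _ ((hg.pd b).mul_cont (h.cont b e)) e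
    refine this.congr fun x => ?_
    unfold D
    rw [Finset.mul_sum]
    exact Finset.sum_congr rfl fun e _ => by ring
  have e3 : I V (fun x => ∑ b, ∑ c, pd b (fun y => g y * τ y i c) x * pd c (fun y => τ y a b) x) =
      I V (fun x => g x * ∑ b, ∑ c, pd b (fun y => τ y i c) x * pd c (fun y => τ y a b) x) +
      I V (fun x => ∑ b, pd b g x * D τ b (fun y => τ y i a) x) := by
    rw [← I_add hc bg bD]
    refine I_congr ?_
    filter_upwards [h.gd, hg.ae, h.sy] with x h1 h2 h3
    rw [Finset.mul_sum, ← Finset.sum_add_distrib]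
    refine Finset.sum_congr rfl fun b _ => ?_
    have h4 : D τ b (fun y => τ y i a) x = ∑ c, τ x i c * pd c (fun y => τ y a b) x := by
      unfold D
      have s1 : (fun y => τ y a b) = fun y => τ y b a := by
        funext y
        rw [← Matrix.transpose_apply (τ y) b a, h.symm y]
      rw [s1, h3 i b a]
    rw [h4, Finset.mul_sum, Finset.mul_sum, ← Finset.sum_add_distrib]
    refine Finset.sum_congr rfl fun c _ => ?_
    rw [pd_mul h2 (h1 i c)]
    ring
  rw [e1, e3]
  ring

end Vale.Agent.P254.SL.K652
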