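import Vale.Agent.P254.SL.Alg652

/-! # P254/SL, S2b (helper652): pointwise inequality `N1 ≤ N2`. -/

open Matrix

namespace Vale.Agent.P254.SL.K652

set_option linter.unusedSectionVars false

variable {ι : Type*} [Fintype ι] [DecidableEq ι]

theorem tr_le (R : Matrix ι ι ℝ) : (R * R).trace ≤ (R * Rᵀ).trace := by
  have h1 : (R * R).trace = ∑ p, ∑ q, R p q * R q p := by
    simp only [Matrix.trace, Matrix.diag, Matrix.mul_apply]
  have h2 : (R * Rᵀ).trace = ∑ p, ∑ q, R p q * R p q := by
    simp only [Matrix.trace, Matrix.diag, Matrix.mul_apply, Matrix.transpose_apply]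
  have h3 : (R * Rᵀ).trace = ∑ p, ∑ q, R q p * R q p := by
    rw [h2, Finset.sum_comm]
  have h4 : 0 ≤ ∑ p, ∑ q, (R p q - R q p) ^ 2 := by positivity
  have h5 : ∑ p, ∑ q, (R p q - R q p) ^ 2 =
      (∑ p, ∑ q, R p q * R p q) + (∑ p, ∑ q, R q p * R q p) - 2 * ∑ p, ∑ q, R p q * R q p := by
    rw [Finset.mul_sum, ← Finset.sum_add_distrib, ← Finset.sum_sub_distrib]
    refine Finset.sum_congr rfl fun p _ => ?_
    rw [Finset.mul_sum, ← Finset.sum_add_distrib, ← Finset.sum_sub_distrib]
    exact Finset.sum_congr rfl fun q _ => by ring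
  rw [h5, ← h2, ← h3, ← h1] at h4
  linarith

theorem sos {τ G Gi : Matrix ι ι ℝ} {t : ι → Matrix ι ι ℝ} (h1 : Gi * G = 1) (h2 : G * Gi = 1)
    (hτ : τ = G * Gᵀ) (ht : ∀ e, (t e)ᵀ = t e)
    (SY : ∀ a b c, ∑ e, τ a e * t e b c = ∑ e, τ b e * t e a c) (w : ι → ℝ) :
    ∑ a, ∑ i, w a * w i * ∑ b, t b a i * ∑ e, τ b e * t e i a ≤
      ∑ a, ∑ i, w a * w i * (τ i a * ∑ b, ∑ c, t b i c * t c a b) := by
  set P : ι → Matrix ι ι ℝ := fun k => ∑ b, G b k • t b with hP
  set W : Matrix ι ι ℝ := Matrix.diagonal w with hW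
  set A : Matrix ι ι ℝ := Giᵀ * Gi with hA
  have hAτ : A * τ = 1 := by
    rw [hA, hτ]
    calc Giᵀ * Gi * (G * Gᵀ) = Giᵀ * (Gi * G) * Gᵀ := by noncomm_ring
      _ = 1 := by rw [h1, Matrix.mul_one, ← Matrix.transpose_mul, h2, Matrix.transpose_one]
  have hAs : Aᵀ = A := by rw [hA, Matrix.transpose_mul, Matrix.transpose_transpose]
  have hτs : τᵀ = τ := by rw [hτ, Matrix.transpose_mul, Matrix.transpose_transpose]
  have hWs : Wᵀ = W := Matrix.diagonal_transpose w
  have hPs : ∀ k, (P k)ᵀ = P k := by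
    intro k
    simp only [hP, Matrix.transpose_sum, Matrix.transpose_smul, ht]
  have hτe : ∀ b e, τ b e = ∑ k, G b k * G e k := by
    intro b e
    rw [hτ, Matrix.mul_apply]
    rfl
  have tsym : ∀ e a b, t e a b = t e b a := fun e a b => by
    conv_lhs => rw [← ht e]
    rfl
  -- left hand side
  have L : ∑ a, ∑ i, w a * w i * ∑ b, t b a i * ∑ e, τ b e * t e i a =
      ∑ k, (W * P k * (W * P k)).trace := by
    have e1 : ∀ k, (W * P k * (W * P k)).trace = ∑ a, ∑ i, w a * w i * (P k a i * P k i a) := by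
      intro k
      have hWP : ∀ a i, (W * P k) a i = w a * P k a i := fun a i => Matrix.diagonal_mul _ _ _ _
      rw [Matrix.trace]
      refine Finset.sum_congr rfl fun a _ => ?_
      rw [Matrix.diag_apply, Matrix.mul_apply]
      exact Finset.sum_congr rfl fun i _ => by rw [hWP, hWP]; ring
    have e2 : ∀ a i, ∑ b, t b a i * ∑ e, τ b e * t e i a = ∑ k, P k a i * P k i a := by
      intro a i
      have e3 : ∀ k, P k a i * P k i a = ∑ b, ∑ e, (G b k * t b a i) * (G e k * t e i a) := by
        intro k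
        rw [← Finset.sum_mul_sum]
        congr 1
        · simp only [hP, Matrix.sum_apply, Matrix.smul_apply, smul_eq_mul]
        · simp only [hP, Matrix.sum_apply, Matrix.smul_apply, smul_eq_mul]
      simp only [e3]
      rw [Finset.sum_comm]
      refine Finset.sum_congr rfl fun b _ => ?_
      rw [Finset.sum_comm, Finset.mul_sum]
      refine Finset.sum_congr rfl fun e _ => ?_
      rw [hτe, Finset.sum_mul, Finset.mul_sum]
      exact Finset.sum_congr rfl fun k _ => by ring
    have e4 : ∑ a, ∑ i, w a * w i * ∑ b, t b a i * ∑ e, τ b e * t e i a =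
        ∑ a, ∑ i, ∑ k, w a * w i * (P k a i * P k i a) :=
      Finset.sum_congr rfl fun a _ => Finset.sum_congr rfl fun i _ => by
        rw [e2, Finset.mul_sum]
    rw [e4]
    simp only [e1]
    rw [Finset.sum_congr rfl fun a (_ : a ∈ Finset.univ) => Finset.sum_comm, Finset.sum_comm]
  -- right hand side
  have Y : ∀ c i d, ∑ b, τ c b * t b i d = ∑ b, τ d b * t b i c := by
    intro c i d
    calc ∑ b, τ c b * t b i d = ∑ b, τ c b * t b d i :=
          Finset.sum_congr rfl fun b _ => by rw [tsym b i d]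
      _ = ∑ b, τ d b * t b c i := SY c d i
      _ = ∑ b, τ d b * t b i c := Finset.sum_congr rfl fun b _ => by rw [tsym b c i]
  have key : ∀ i a, ∑ b, ∑ c, t b i c * t c a b = ∑ k, (P k * A * P k) i a := by
    intro i a
    have e1 : ∀ k, (P k * A * P k) i a = ∑ b, ∑ c, (G b k * G c k) * (t b * A * t c) i a := by
      intro k
      have : P k * A * P k = ∑ b, ∑ c, (G b k * G c k) • (t b * A * t c) := by
        simp only [hP, Finset.sum_mul, Finset.mul_sum, Matrix.smul_mul, Matrix.mul_smul, smul_smul]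
        rw [Finset.sum_comm]
        exact Finset.sum_congr rfl fun b _ => Finset.sum_congr rfl fun c _ => by
          rw [mul_comm]
      rw [this]
      simp only [Matrix.sum_apply, Matrix.smul_apply, smul_eq_mul]
    have e2 : ∑ k, (P k * A * P k) i a = ∑ c, ∑ b, τ c b * (t b * A * t c) i a := by
      simp only [e1]
      rw [Finset.sum_comm, Finset.sum_congr rfl fun b (_ : b ∈ Finset.univ) => Finset.sum_comm,
        Finset.sum_comm]
      refine Finset.sum_congr rfl fun c _ => Finset.sum_congr rfl fun b _ => ?_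
      rw [← Finset.sum_mul, hτe]
      congr 1
      exact Finset.sum_congr rfl fun k _ => mul_comm _ _
    have e3 : ∀ c, ∑ b, τ c b * (t b * A * t c) i a = ∑ b, t b i c * t c b a := by
      intro c
      have e4 : ∀ b, τ c b * (t b * A * t c) i a = ∑ e, ∑ d, (τ c b * t b i d) * A d e * t c e a := by
        intro b
        rw [Matrix.mul_apply, Finset.mul_sum]
        refine Finset.sum_congr rfl fun e _ => ?_
        rw [Matrix.mul_apply, Finset.sum_mul, Finset.mul_sum]
        exact Finset.sum_congr rfl fun d _ => by ring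
      simp only [e4]
      rw [Finset.sum_comm]
      have e5 : ∀ e, ∑ b, ∑ d, (τ c b * t b i d) * A d e * t c e a =
          ∑ b, (∑ d, A e d * τ d b) * t b i c * t c e a := by
        intro e
        rw [Finset.sum_comm]
        have e6 : ∀ d, ∑ b, (τ c b * t b i d) * A d e * t c e a =
            ∑ b, (τ d b * t b i c) * A d e * t c e a := by
          intro d
          rw [← Finset.sum_mul, ← Finset.sum_mul, Y c i d, Finset.sum_mul, Finset.sum_mul]
        simp only [e6]
        rw [Finset.sum_comm]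
        refine Finset.sum_congr rfl fun b _ => ?_
        rw [Finset.sum_mul, Finset.sum_mul]
        refine Finset.sum_congr rfl fun d _ => ?_
        have : A d e = A e d := by
          conv_lhs => rw [← hAs]
          rfl
        rw [this]
        ring
      simp only [e5]
      have e7 : ∀ e b, ∑ d, A e d * τ d b = (1 : Matrix ι ι ℝ) e b := by
        intro e b
        rw [← Matrix.mul_apply, hAτ]
      simp only [e7, Matrix.one_apply, ite_mul, one_mul, zero_mul, Finset.sum_ite_eq,
        Finset.mem_univ, if_true]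
    rw [e2]
    simp only [e3]
    rw [Finset.sum_comm]
    exact Finset.sum_congr rfl fun b _ => Finset.sum_congr rfl fun c _ => by rw [tsym b c a]
  have Rr : ∑ a, ∑ i, w a * w i * (τ i a * ∑ b, ∑ c, t b i c * t c a b) =
      ∑ k, (τ * W * (P k * A * P k) * W).trace := by
    simp only [key]
    have e1 : ∀ k, (τ * W * (P k * A * P k) * W).trace =
        ∑ a, ∑ i, w a * w i * (τ i a * (P k * A * P k) i a) := by
      intro k
      simp only [Matrix.trace, Matrix.diag, hW, Matrix.mul_diagonal]
      refine Finset.sum_congr rfl fun a _ => ?_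
      rw [Matrix.mul_apply, Finset.sum_mul]
      refine Finset.sum_congr rfl fun i _ => ?_
      rw [Matrix.mul_diagonal]
      have : τ a i = τ i a := by
        conv_lhs => rw [← hτs]
        rfl
      rw [this]
      ring
    simp only [e1, Finset.mul_sum]
    rw [Finset.sum_congr rfl fun a (_ : a ∈ Finset.univ) => Finset.sum_comm, Finset.sum_comm]
  rw [L, Rr]
  refine Finset.sum_le_sum fun k _ => ?_
  have hk := tr_le (Gᵀ * W * P k * Giᵀ)
  have q1 : (Gᵀ * W * P k * Giᵀ * (Gᵀ * W * P k * Giᵀ)).trace = (W * P k * (W * P k)).trace := by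
    have : Gᵀ * W * P k * Giᵀ * (Gᵀ * W * P k * Giᵀ) =
        Gᵀ * (W * P k * ((Giᵀ * Gᵀ) * (W * P k * Giᵀ))) := by noncomm_ring
    rw [this, ← Matrix.transpose_mul, h2, Matrix.transpose_one, Matrix.one_mul,
      Matrix.trace_mul_comm]
    congr 1
    have : W * P k * (W * P k * Giᵀ) * Gᵀ = W * P k * (W * P k * (Giᵀ * Gᵀ)) := by noncomm_ring
    rw [this, ← Matrix.transpose_mul, h2, Matrix.transpose_one, Matrix.mul_one]
  have q2 : (Gᵀ * W * P k * Giᵀ * (Gᵀ * W * P k * Giᵀ)ᵀ).trace =
      (τ * W * (P k * A * P k) * W).trace := by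
    have : Gᵀ * W * P k * Giᵀ * (Gᵀ * W * P k * Giᵀ)ᵀ = Gᵀ * (W * (P k * A * P k) * W * G) := by
      simp only [Matrix.transpose_mul, Matrix.transpose_transpose, hPs, hWs, hA]
      noncomm_ring
    rw [this, Matrix.trace_mul_comm, Matrix.mul_assoc, ← hτ, Matrix.trace_mul_comm]
    congr 1
    noncomm_ring
  rw [q1, q2] at hk
  exact hk

end Vale.Agent.P254.SL.K652
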