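import Vale.Agent.P254.SL.Bo652
import Vale.Agent.P254.SL.Sos652

/-! # P254/SL, S2b (helper652): cut-off and the static inequality `2 N1 ≤ E tr(WτWτ) - E tr(WτWτHτ)`. -/

open MeasureTheory Filter
open scoped Topology NNReal
open Vale.Agent.P227.M (E ei pd hess qf Reg Test)

namespace Vale.Agent.P254.SL.K652

variable {n : ℕ} {V : E n → ℝ} {τ : E n → Matrix (Fin n) (Fin n) ℝ}

/-- Lipschitz cut-off -/
noncomputable def cut (m : ℕ) (x : E n) : ℝ := max 0 (min 1 (2 - ‖x‖ / (m + 1)))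

theorem cut_nonneg (m : ℕ) (x : E n) : 0 ≤ cut m x := le_max_left _ _

theorem cut_le (m : ℕ) (x : E n) : cut m x ≤ 1 := max_le zero_le_one (min_le_left _ _)

theorem cut_lip (m : ℕ) : LipschitzWith (1 / ((m : ℝ≥0) + 1)) (cut m : E n → ℝ) := by
  have h0 : (0 : ℝ) < (m : ℝ) + 1 := by positivity
  have h1 : LipschitzWith (1 / ((m : ℝ≥0) + 1)) (fun x : E n => 2 - ‖x‖ / ((m : ℝ) + 1)) := by
    refine LipschitzWith.of_dist_le_mul fun x y => ?_
    rw [Real.dist_eq]
    have : 2 - ‖x‖ / ((m : ℝ) + 1) - (2 - ‖y‖ / ((m : ℝ) + 1)) = (‖y‖ - ‖x‖) / ((m : ℝ) + 1) := by ring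
    rw [this, abs_div, abs_of_pos h0, dist_eq_norm]
    push_cast
    rw [one_div, inv_mul_eq_div]
    gcongr
    rw [← norm_neg (x - y), neg_sub]
    exact abs_norm_sub_norm_le _ _
  exact (h1.const_min 1).const_max 0

theorem cut_lc (m : ℕ) : LC (cut m : E n → ℝ) := by
  refine ⟨⟨_, cut_lip m⟩, ?_⟩
  refine HasCompactSupport.of_support_subset_isCompact
    (isCompact_closedBall (0 : E n) (2 * ((m : ℝ) + 1))) fun x hx => ?_
  rw [mem_closedBall_zero_iff]
  by_contra hc
  push Not at hc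
  apply hx
  have h0 : (0 : ℝ) < (m : ℝ) + 1 := by positivity
  have : 2 < ‖x‖ / ((m : ℝ) + 1) := by rw [lt_div_iff₀ h0]; exact hc
  unfold cut
  rw [max_eq_left]
  exact (min_le_right _ _).trans (by linarith)

theorem cut_tendsto (x : E n) : Tendsto (fun m => cut m x) atTop (𝓝 1) := by
  obtain ⟨N, hN⟩ := exists_nat_ge ‖x‖
  refine tendsto_const_nhds.congr' ?_
  filter_upwards [eventually_ge_atTop N] with m hm
  have h0 : (0 : ℝ) < (m : ℝ) + 1 := by positivity
  have h1 : ‖x‖ / ((m : ℝ) + 1) ≤ 1 := by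
    rw [div_le_one h0]
    have : (N : ℝ) ≤ m := by exact_mod_cast hm
    linarith
  unfold cut
  rw [min_eq_left (by linarith), max_eq_right zero_le_one]

theorem cut_pd (m : ℕ) (a : Fin n) (x : E n) : |pd a (cut m) x| ≤ 1 / ((m : ℝ) + 1) := by
  have := pd_bdd_of_lip (cut_lip (n := n) m) a x
  simpa using this

/-- bounded measurable -/
def BM (f : E n → ℝ) : Prop := Measurable f ∧ ∃ B, ∀ x, |f x| ≤ B

theorem BM.mul {f g : E n → ℝ} (hf : BM f) (hg : BM g) : BM (fun x => f x * g x) := by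
  obtain ⟨mf, A, hA⟩ := hf
  obtain ⟨mg, B, hB⟩ := hg
  refine ⟨mf.mul mg, A * B, fun x => ?_⟩
  rw [abs_mul]
  exact mul_le_mul (hA x) (hB x) (abs_nonneg _) ((abs_nonneg _).trans (hA x))

theorem BM.add {f g : E n → ℝ} (hf : BM f) (hg : BM g) : BM (fun x => f x + g x) := by
  obtain ⟨mf, A, hA⟩ := hf
  obtain ⟨mg, B, hB⟩ := hg
  exact ⟨mf.add mg, A + B, fun x => (abs_add_le _ _).trans (add_le_add (hA x) (hB x))⟩

theorem BM.zero : BM (fun _ : E n => (0 : ℝ)) := ⟨measurable_const, 0, by simp⟩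

theorem BM.const (c : ℝ) : BM (fun _ : E n => c) := ⟨measurable_const, |c|, fun _ => le_rfl⟩

theorem BM.sum {ι : Type*} (s : Finset ι) {f : ι → E n → ℝ} (hf : ∀ i ∈ s, BM (f i)) :
    BM (fun x => ∑ i ∈ s, f i x) := by
  classical
  induction s using Finset.induction_on with
  | empty => simpa using (BM.zero (n := n))
  | insert a s ha ih =>
    simp only [Finset.sum_insert ha]
    exact (hf a (Finset.mem_insert_self a s)).add (ih fun i hi => hf i (Finset.mem_insert_of_mem hi))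

theorem BM.sum' {ι : Type*} [Fintype ι] {f : ι → E n → ℝ} (hf : ∀ i, BM (f i)) :
    BM (fun x => ∑ i, f i x) := BM.sum _ fun i _ => hf i

theorem BL.bm {f : E n → ℝ} (hf : BL f) : BM f := by
  obtain ⟨⟨K, hK⟩, B⟩ := hf
  exact ⟨hK.continuous.measurable, B⟩

theorem BL.bm_pd {f : E n → ℝ} (hf : BL f) (a : Fin n) : BM (pd a f) := by
  obtain ⟨⟨K, hK⟩, B⟩ := hf
  exact ⟨meas_pd f a, K, pd_bdd_of_lip hK a⟩

theorem BM.int {f : E n → ℝ} (hf : BM f) (hi : Integrable (fun x => Real.exp (-V x))) :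
    Integrable (fun x => f x * Real.exp (-V x)) := by
  obtain ⟨mf, B, hB⟩ := hf
  exact hi.bdd_mul mf.aestronglyMeasurable (ae_of_all _ hB)

/-- `E f χ_m → E f` -/
theorem tendsto_cut (hi : Integrable (fun x => Real.exp (-V x))) {f : E n → ℝ} (hf : BM f) :
    Tendsto (fun m => I V (fun x => cut m x * f x)) atTop (𝓝 (I V f)) := by
  unfold I
  refine tendsto_integral_of_dominated_convergence (fun x => ‖f x * Real.exp (-V x)‖)
    (fun m => ?_) (hf.int hi).norm (fun m => ?_) ?_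
  · exact (((cut_lc m).continuous.measurable.mul hf.1).aestronglyMeasurable).mul
      hi.aestronglyMeasurable
  · refine ae_of_all _ fun x => ?_
    rw [mul_assoc, norm_mul]
    have : ‖cut m x‖ ≤ 1 := by
      rw [Real.norm_eq_abs, abs_of_nonneg (cut_nonneg m x)]
      exact cut_le m x
    exact mul_le_of_le_one_left (norm_nonneg _) this
  · refine ae_of_all _ fun x => ?_
    have := ((cut_tendsto x).mul_const (f x)).mul_const (Real.exp (-V x))
    simpa using this

/-- `E ∂χ_m f → 0` -/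
theorem tendsto_cut_pd (hi : Integrable (fun x => Real.exp (-V x))) {f : E n → ℝ} (hf : BM f)
    (a : Fin n) : Tendsto (fun m => I V (fun x => pd a (cut m) x * f x)) atTop (𝓝 0) := by
  have h1 : ∀ m : ℕ, ‖I V (fun x => pd a (cut m) x * f x)‖ ≤
      (1 / ((m : ℝ) + 1)) * ∫ x, ‖f x * Real.exp (-V x)‖ := by
    intro m
    unfold I
    rw [← integral_const_mul]
    refine norm_integral_le_of_norm_le ((hf.int hi).norm.const_mul _) (ae_of_all _ fun x => ?_)
    rw [mul_assoc, norm_mul]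
    exact mul_le_mul_of_nonneg_right (cut_pd m a x) (norm_nonneg _)
  have h2 : Tendsto (fun m : ℕ => (1 / ((m : ℝ) + 1)) * ∫ x, ‖f x * Real.exp (-V x)‖) atTop (𝓝 0) := by
    have := (tendsto_one_div_add_atTop_nhds_zero_nat (𝕜 := ℝ)).mul_const
      (∫ x, ‖f x * Real.exp (-V x)‖)
    simpa using this
  exact squeeze_zero_norm h1 h2

end Vale.Agent.P254.SL.K652
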