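import Vale.Agent.P254.SL.Lip652
import Vale.Agent.P254.SL.Alg652

/-! # P227/M, StmtKey (helper652), part 3: integral identities for Lipschitz `τ`. -/

open MeasureTheory Filter
open scoped Topology NNReal
open Vale.Agent.P227.M (E ei pd hess qf Reg Test)

namespace Vale.Agent.P254.SL.K652

variable {n : ℕ}

/-- abstract data: `V` smooth, `τ` Lipschitz -/
structure Dat (V : E n → ℝ) (τ : E n → Matrix (Fin n) (Fin n) ℝ) : Prop where
  hV : ContDiff ℝ (⊤ : ℕ∞) V
  lip : ∀ a b, ∃ K, LipschitzWith K (fun x => τ x a b)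
  bdd : ∀ a b, ∃ B, ∀ x, |τ x a b| ≤ B
  symm : ∀ x, (τ x).transpose = τ x
  fac : ∀ x, ∃ G Gi : Matrix (Fin n) (Fin n) ℝ, Gi * G = 1 ∧ G * Gi = 1 ∧ τ x = G * G.transpose
  st : ∀ᵐ x, ∀ a, ∑ b, (pd b V x * τ x a b - pd b (fun y => τ y a b) x) = x a
  sy : ∀ᵐ x, ∀ a b c, ∑ e, τ x a e * pd e (fun y => τ y b c) x =
    ∑ e, τ x b e * pd e (fun y => τ y a c) x

/-- `D_a f = τ_ae ∂_e f` -/
noncomputable def D (τ : E n → Matrix (Fin n) (Fin n) ℝ) (a : Fin n) (f : E n → ℝ) (x : E n) : ℝ :=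
  ∑ e, τ x a e * pd e f x

/-- `D*_a f = x_a f - D_a f` -/
noncomputable def Ds (τ : E n → Matrix (Fin n) (Fin n) ℝ) (a : Fin n) (f : E n → ℝ) (x : E n) : ℝ :=
  x a * f x - D τ a f x

theorem smooth_pd {f : E n → ℝ} (hf : ContDiff ℝ (⊤ : ℕ∞) f) (a : Fin n) :
    ContDiff ℝ (⊤ : ℕ∞) (pd a f) := by
  have : ContDiff ℝ (⊤ : ℕ∞) (fderiv ℝ f) := hf.fderiv_right (by simp)
  exact this.clm_apply contDiff_const

theorem test_pd {f : E n → ℝ} (hf : Test f) (a : Fin n) : Test (pd a f) :=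
  ⟨smooth_pd hf.1 a, hf.2.fderiv_apply ℝ (ei a)⟩

theorem smooth_c1 {f : E n → ℝ} (hf : ContDiff ℝ (⊤ : ℕ∞) f) : ContDiff ℝ 1 f :=
  hf.of_le (by exact_mod_cast le_top)

theorem smooth_diff {f : E n → ℝ} (hf : ContDiff ℝ (⊤ : ℕ∞) f) (x : E n) : DifferentiableAt ℝ f x :=
  (hf.differentiable (by simp)) x

theorem test_lc {f : E n → ℝ} (hf : Test f) : LC f := LC.of_contDiff (smooth_c1 hf.1) hf.2

theorem pd_comm {f : E n → ℝ} (hf : ContDiff ℝ (⊤ : ℕ∞) f) (a b : Fin n) (x : E n) :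
    pd a (pd b f) x = pd b (pd a f) x := by
  have h2 : ContDiff ℝ 2 f := contDiff_infty.1 hf 2
  have hs : IsSymmSndFDerivAt ℝ f x := h2.contDiffAt.isSymmSndFDerivAt (by simp)
  have hd : DifferentiableAt ℝ (fderiv ℝ f) x :=
    ((h2.fderiv_right (m := 1) (by norm_num)).differentiable (by simp)) x
  have e : ∀ c d : Fin n, pd c (pd d f) x = fderiv ℝ (fderiv ℝ f) x (ei c) (ei d) := by
    intro c d
    unfold pd
    rw [fderiv_clm_apply hd (differentiableAt_const _)]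
    simp
  rw [e, e, hs.eq]

/-- differentiability part of good points -/
def Gd (τ : E n → Matrix (Fin n) (Fin n) ℝ) (x : E n) : Prop :=
  ∀ a b, DifferentiableAt ℝ (fun y => τ y a b) x

section

variable {V : E n → ℝ} {τ : E n → Matrix (Fin n) (Fin n) ℝ}

theorem Dat.gd (h : Dat V τ) : ∀ᵐ x, Gd τ x := by
  unfold Gd
  rw [ae_all_iff]
  intro a
  rw [ae_all_iff]
  intro b
  obtain ⟨K, hK⟩ := h.lip a b
  exact hK.ae_differentiableAt

theorem Dat.c1 (h : Dat V τ) : ContDiff ℝ 1 V := smooth_c1 h.hV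

theorem Dat.lm (h : Dat V τ) (a b : Fin n) : LM (fun x => τ x a b) := LM.of_lip (h.lip a b) (h.bdd a b)

theorem Dat.cont (h : Dat V τ) (a b : Fin n) : Continuous (fun x => τ x a b) := (h.lm a b).cont

theorem Dat.lcD (h : Dat V τ) {f : E n → ℝ} (hf : Test f) (a : Fin n) : LC (D τ a f) := by
  unfold D
  refine LC.sum' fun e => ?_
  have := (h.lm a e).mul _ (test_lc (test_pd hf e))
  simpa only [mul_comm] using this

theorem Dat.bcD (h : Dat V τ) {f : E n → ℝ} (hf : LC f) (a : Fin n) : BC (D τ a f) := by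
  unfold D
  refine BC.sum' fun e => ?_
  have := (hf.pd e).mul_cont (h.cont a e)
  simpa only [mul_comm] using this

theorem cont_coord (a : Fin n) : Continuous (fun x : E n => x a) := by fun_prop

theorem Dat.bcDs (h : Dat V τ) {f : E n → ℝ} (hf : LC f) (a : Fin n) : BC (Ds τ a f) := by
  unfold Ds
  refine BC.sub ?_ (h.bcD hf a)
  have := hf.bc.mul_cont (cont_coord a)
  simpa only [mul_comm] using this

theorem diff_D {x : E n} (hx : Gd τ x) {f : E n → ℝ} (hf : ContDiff ℝ (⊤ : ℕ∞) f) (a : Fin n) :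
    DifferentiableAt ℝ (D τ a f) x := by
  unfold D
  exact DifferentiableAt.fun_sum fun e _ => (hx a e).fun_mul (smooth_diff (smooth_pd hf e) x)

theorem pd_D {x : E n} (hx : Gd τ x) {f : E n → ℝ} (hf : ContDiff ℝ (⊤ : ℕ∞) f) (a c : Fin n) :
    pd c (D τ a f) x = ∑ e, (pd c (fun y => τ y a e) x * pd e f x + τ x a e * pd c (pd e f) x) := by
  unfold D
  rw [pd_sum _ fun e _ => (hx a e).fun_mul (smooth_diff (smooth_pd hf e) x)]
  exact Finset.sum_congr rfl fun e _ => pd_mul (hx a e) (smooth_diff (smooth_pd hf e) x) c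

theorem I_sum1 (hV : ContDiff ℝ 1 V) {ι : Type*} [Fintype ι] {f : ι → E n → ℝ}
    (hf : ∀ i, BC (f i)) : I V (fun x => ∑ i, f i x) = ∑ i, I V (f i) :=
  I_sum hV _ fun i _ => hf i

theorem I_sum2 (hV : ContDiff ℝ 1 V) {ι κ : Type*} [Fintype ι] [Fintype κ] {f : ι → κ → E n → ℝ}
    (hf : ∀ i j, BC (f i j)) : I V (fun x => ∑ i, ∑ j, f i j x) = ∑ i, ∑ j, I V (f i j) := by
  rw [I_sum1 hV fun i => BC.sum' (hf i)]
  exact Finset.sum_congr rfl fun i _ => I_sum1 hV (hf i)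

theorem I_sum3 (hV : ContDiff ℝ 1 V) {ι κ μ : Type*} [Fintype ι] [Fintype κ] [Fintype μ]
    {f : ι → κ → μ → E n → ℝ} (hf : ∀ i j k, BC (f i j k)) :
    I V (fun x => ∑ i, ∑ j, ∑ k, f i j k x) = ∑ i, ∑ j, ∑ k, I V (f i j k) := by
  rw [I_sum1 hV fun i => BC.sum' fun j => BC.sum' (hf i j)]
  exact Finset.sum_congr rfl fun i _ => I_sum2 hV (hf i)

/-- `Σ_e (V_e (Z τ_de) - ∂_e (Z τ_de)) = D*_d Z` a.e. -/
theorem Dat.sumD (h : Dat V τ) {Z : E n → ℝ} (hZ : LC Z) (d : Fin n) :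
    ∀ᵐ x, ∑ e, (pd e V x * (Z x * τ x d e) - pd e (fun y => Z y * τ y d e) x) = Ds τ d Z x := by
  filter_upwards [h.gd, h.st, hZ.ae] with x h1 h2 h3
  have h4 : ∀ e, pd e V x * (Z x * τ x d e) - pd e (fun y => Z y * τ y d e) x =
      Z x * (pd e V x * τ x d e - pd e (fun y => τ y d e) x) - τ x d e * pd e Z x := by
    intro e
    rw [pd_mul h3 (h1 d e)]
    ring
  simp only [h4]
  rw [Finset.sum_sub_distrib, ← Finset.mul_sum, h2 d]
  unfold Ds D
  ring

theorem Dat.bcV (h : Dat V τ) {f : E n → ℝ} (hf : BC f) (a : Fin n) : BC (fun x => pd a V x * f x) := by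
  have := hf.mul_cont (smooth_pd h.hV a).continuous
  simpa only [mul_comm] using this

/-- (X1) `E f D_a g = E (D*_a f) g` -/
theorem Dat.ibp_D (h : Dat V τ) {f g : E n → ℝ} (hf : LC f) (hg : LM g) (a : Fin n) :
    I V (fun x => f x * D τ a g x) = I V (fun x => Ds τ a f x * g x) := by
  have hfe : ∀ e, LC (fun x => f x * τ x a e) := fun e => (h.lm a e).mul f hf
  have b1 : ∀ e, BC (fun x => (f x * τ x a e) * pd e g x) := fun e => hg.mpd _ (hfe e).bc e
  have b2 : ∀ e, BC (fun x => (pd e V x * (f x * τ x a e) - pd e (fun y => f y * τ y a e) x) * g x) :=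
    fun e => ((h.bcV (hfe e).bc e).sub ((hfe e).pd e)).mul_cont hg.cont
  have e1 : I V (fun x => f x * D τ a g x) = ∑ e, I V (fun x => (f x * τ x a e) * pd e g x) := by
    rw [← I_sum1 h.c1 b1]
    refine I_congr (ae_of_all _ fun x => ?_)
    simp only [D, Finset.mul_sum, mul_assoc]
  rw [e1, Finset.sum_congr rfl fun e _ => ibp_d h.c1 (hfe e) hg e, ← I_sum1 h.c1 b2]
  refine I_congr ?_
  filter_upwards [h.sumD hf a] with x hx
  rw [← hx, Finset.sum_mul]

/-- (X) -/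
theorem Dat.X (h : Dat V τ) {W Z : E n → ℝ} (hW : LC W) (hZ : LC Z) (a d : Fin n) :
    I V (fun x => pd a W x * Ds τ d Z x) =
      I V (fun x => pd a V x * D τ d W x * Z x - (∑ e, pd a (fun y => τ y d e) x * pd e W x) * Z x
        - D τ d W x * pd a Z x) := by
  have hZe : ∀ e, LC (fun x => Z x * τ x d e) := fun e => (h.lm d e).mul Z hZ
  have b : ∀ (c e e' : Fin n), BC (fun x => pd e W x *
      (pd c V x * (Z x * τ x d e') - pd c (fun y => Z y * τ y d e') x)) :=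
    fun c e e' => (hW.pd e).mul ((h.bcV (hZe e').bc c).sub ((hZe e').pd c))
  have e1 : I V (fun x => pd a W x * Ds τ d Z x) = ∑ e, I V (fun x => pd a W x *
      (pd e V x * (Z x * τ x d e) - pd e (fun y => Z y * τ y d e) x)) := by
    rw [← I_sum1 h.c1 fun e => b e a e]
    refine I_congr ?_
    filter_upwards [h.sumD hZ d] with x hx
    rw [← hx, Finset.mul_sum]
  rw [e1, Finset.sum_congr rfl fun e _ => nul_w h.c1 hW (hZe e) a e, ← I_sum1 h.c1 fun e => b a e e]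
  refine I_congr ?_
  filter_upwards [h.gd, hZ.ae] with x h1 h2
  have h4 : ∀ e, pd e W x * (pd a V x * (Z x * τ x d e) - pd a (fun y => Z y * τ y d e) x) =
      pd a V x * Z x * (τ x d e * pd e W x) - (pd a (fun y => τ y d e) x * pd e W x) * Z x
        - (τ x d e * pd e W x) * pd a Z x := by
    intro e
    rw [pd_mul h2 (h1 d e)]
    ring
  simp only [h4]
  rw [Finset.sum_sub_distrib, Finset.sum_sub_distrib, ← Finset.mul_sum, ← Finset.sum_mul,
    ← Finset.sum_mul]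
  unfold D
  ring

/-- `-L f = Σ_a (x_a ∂_a f) - Σ τ_ae ∂_a∂_e f` -/
noncomputable def Lm (τ : E n → Matrix (Fin n) (Fin n) ℝ) (f : E n → ℝ) (x : E n) : ℝ :=
  ∑ a, x a * pd a f x - ∑ a, ∑ e, τ x a e * pd a (pd e f) x

theorem Dat.divfld (h : Dat V τ) {f : E n → ℝ} (hf : ContDiff ℝ (⊤ : ℕ∞) f) :
    ∀ᵐ x, ∑ a, (pd a V x * D τ a f x - pd a (D τ a f) x) = Lm τ f x := by
  filter_upwards [h.gd, h.st] with x h1 h2
  have h3 : ∀ a, pd a V x * D τ a f x - pd a (D τ a f) x =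
      ∑ e, ((pd a V x * τ x e a - pd a (fun y => τ y e a) x) * pd e f x
        - τ x a e * pd a (pd e f) x) := by
    intro a
    rw [pd_D h1 hf]
    unfold D
    rw [Finset.mul_sum, ← Finset.sum_sub_distrib]
    refine Finset.sum_congr rfl fun e _ => ?_
    have s1 : ∀ y, τ y e a = τ y a e := fun y => by
      rw [← Matrix.transpose_apply (τ y) a e, h.symm y]
    simp only [s1]
    ring
  simp only [h3, Finset.sum_sub_distrib]
  unfold Lm
  congr 1
  rw [Finset.sum_comm]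
  refine Finset.sum_congr rfl fun e _ => ?_
  rw [← Finset.sum_mul, h2 e]

theorem Dat.lcLm (h : Dat V τ) {f : E n → ℝ} (hf : Test f) : LC (Lm τ f) := by
  unfold Lm
  refine LC.sub (LC.sum' fun a => ?_) (LC.sum' fun a => LC.sum' fun e => ?_)
  · have h1 : ContDiff ℝ 1 (fun x : E n => x a) := by fun_prop
    have := (test_lc (test_pd hf a)).mul_c1 h1
    simpa only [mul_comm] using this
  · have := (h.lm a e).mul _ (test_lc (test_pd (test_pd hf e) a))
    simpa only [mul_comm] using this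

end

end Vale.Agent.P254.SL.K652
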