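import Vale.Agent.P227.M.Bas
import Vale.Agent.P227.M.Loc.TauB
import Vale.Agent.P227.M.LIM.Push
import Vale.Agent.P227.M.DUAL.Coord
import Vale.Agent.P347.PoinA

/-! # P254/SL, S2c: the Brascamp-Lieb inequality in the `x`-chart of a moment map (helper700).

`Var_V F ≤ E ∑ τ_ij F_i F_j`: the second order term of Prekopa-Leindler for the Legendre duals of `ψ ± t F`. -/

open MeasureTheory Filter Set
open scoped Topology

namespace Vale.Agent.P254.SL.Gap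

open Vale.Agent.P227.M

variable {n : ℕ}

/-- Taylor lower bound in dimension one -/
theorem taylor_low {f f' f'' : ℝ → ℝ} {m : ℝ} (h1 : ∀ s, HasDerivAt f (f' s) s)
    (h2 : ∀ s, HasDerivAt f' (f'' s) s) (hm : ∀ s, 0 ≤ s → s ≤ 1 → m ≤ f'' s) :
    f 0 + f' 0 + m / 2 ≤ f 1 := by
  have a1 : ∀ s ∈ Icc (0 : ℝ) 1, f' 0 + m * s ≤ f' s := by
    intro s hs
    have hmono : MonotoneOn (fun s => f' s - m * s) (Icc (0 : ℝ) 1) := by
      refine monotoneOn_of_deriv_nonneg (convex_Icc 0 1) ?_ ?_ ?_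
      · exact fun t _ => (((h2 t).sub ((hasDerivAt_id t).const_mul m)).continuousAt).continuousWithinAt
      · exact fun t _ => (((h2 t).sub ((hasDerivAt_id t).const_mul m)).differentiableAt).differentiableWithinAt
      · intro t ht
        rw [interior_Icc] at ht
        have h := ((h2 t).sub ((hasDerivAt_id t).const_mul m)).deriv
        have h' : deriv (fun s => f' s - m * s) t = f'' t - m * 1 := h
        rw [h']
        have := hm t ht.1.le ht.2.le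
        linarith
    have h0 := hmono (left_mem_Icc.2 zero_le_one) hs hs.1
    simp only [mul_zero, sub_zero] at h0
    linarith
  have hmono : MonotoneOn (fun s => f s - f' 0 * s - m / 2 * s ^ 2) (Icc (0 : ℝ) 1) := by
    have hd : ∀ t : ℝ, HasDerivAt (fun s => f s - f' 0 * s - m / 2 * s ^ 2) (f' t - f' 0 - m * t) t := by
      intro t
      have h := ((h1 t).sub ((hasDerivAt_id t).const_mul (f' 0))).sub (((hasDerivAt_id t).pow 2).const_mul (m / 2))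
      refine h.congr_deriv ?_
      simp only [id]
      ring
    refine monotoneOn_of_deriv_nonneg (convex_Icc 0 1) ?_ ?_ ?_
    · exact fun t _ => (hd t).continuousAt.continuousWithinAt
    · exact fun t _ => (hd t).differentiableAt.differentiableWithinAt
    · intro t ht
      rw [interior_Icc] at ht
      rw [(hd t).deriv]
      have := a1 t ⟨ht.1.le, ht.2.le⟩
      linarith
  have h0 := hmono (left_mem_Icc.2 zero_le_one) (right_mem_Icc.2 zero_le_one) zero_le_one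
  simp only at h0
  linarith

theorem line1 {f : E n → ℝ} (hf : ContDiff ℝ 2 f) (x v : E n) (t : ℝ) :
    HasDerivAt (fun t : ℝ => f (x + t • v)) (fderiv ℝ f (x + t • v) v) t := by
  have h1 : HasDerivAt (fun t : ℝ => x + t • v) v t := by
    simpa using ((hasDerivAt_id t).smul_const v).const_add x
  exact ((hf.differentiable (by norm_num)) (x + t • v)).hasFDerivAt.comp_hasDerivAt t h1

theorem line2 {f : E n → ℝ} (hf : ContDiff ℝ 2 f) (x v : E n) (t : ℝ) :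
    HasDerivAt (fun t : ℝ => fderiv ℝ f (x + t • v) v) (qf (hess f (x + t • v)) v) t := by
  have h1 : HasDerivAt (fun t : ℝ => x + t • v) v t := by
    simpa using ((hasDerivAt_id t).smul_const v).const_add x
  have h2 : Differentiable ℝ (fderiv ℝ f) :=
    (hf.fderiv_right (m := 1) (by norm_num)).differentiable (by norm_num)
  have h := (h2 (x + t • v)).hasFDerivAt.comp_hasDerivAt t h1
  have h' := h.clm_apply (hasDerivAt_const t v)
  rw [qf_hess_eq hf]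
  simpa using h'

theorem low1 {ψ : E n → ℝ} {c : ℝ} (h2 : ContDiff ℝ 2 ψ) (hl : ∀ x v, c * ‖v‖ ^ 2 ≤ qf (hess ψ x) v)
    (x h : E n) : ψ x + fderiv ℝ ψ x h + c * ‖h‖ ^ 2 / 2 ≤ ψ (x + h) := by
  have := taylor_low (m := c * ‖h‖ ^ 2) (line1 h2 x h) (line2 h2 x h) (fun s _ _ => hl _ _)
  simpa using this

theorem qf_lip {ψ : E n → ℝ} {M : ℝ} (hL : ∀ i j x y, |hess ψ x i j - hess ψ y i j| ≤ M * ‖x - y‖)
    (x y v : E n) : qf (hess ψ y) v ≤ qf (hess ψ x) v + (n : ℝ) ^ 2 * |M| * ‖x - y‖ * ‖v‖ ^ 2 := by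
  have h1 : qf (hess ψ y) v - qf (hess ψ x) v ≤ ∑ i : Fin n, ∑ j : Fin n, |M| * ‖x - y‖ * ‖v‖ ^ 2 := by
    unfold qf
    rw [← Finset.sum_sub_distrib]
    refine Finset.sum_le_sum fun i _ => ?_
    rw [← Finset.sum_sub_distrib]
    refine Finset.sum_le_sum fun j _ => ?_
    have e : hess ψ y i j * v i * v j - hess ψ x i j * v i * v j = (hess ψ y i j - hess ψ x i j) * (v i * v j) := by
      ring
    rw [e]
    refine (le_abs_self _).trans ?_
    rw [abs_mul, abs_mul]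
    have a1 : |hess ψ y i j - hess ψ x i j| ≤ |M| * ‖x - y‖ := by
      have := hL i j y x
      rw [norm_sub_rev] at this
      exact this.trans (mul_le_mul_of_nonneg_right (le_abs_self M) (norm_nonneg _))
    have a2 : |v i| * |v j| ≤ ‖v‖ ^ 2 := by
      rw [pow_two]
      exact mul_le_mul (abs_coord_le v i) (abs_coord_le v j) (abs_nonneg _) (norm_nonneg _)
    exact mul_le_mul a1 a2 (by positivity) (by positivity)
  rw [Finset.sum_const, Finset.sum_const, Finset.card_univ, Fintype.card_fin, nsmul_eq_mul, nsmul_eq_mul] at h1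
  nlinarith

theorem low2 {ψ : E n → ℝ} {M : ℝ} (h2 : ContDiff ℝ 2 ψ)
    (hL : ∀ i j x y, |hess ψ x i j - hess ψ y i j| ≤ M * ‖x - y‖) (x h : E n) :
    ψ x + fderiv ℝ ψ x h + (qf (hess ψ x) h - (n : ℝ) ^ 2 * |M| * ‖h‖ ^ 3) / 2 ≤ ψ (x + h) := by
  have := taylor_low (m := qf (hess ψ x) h - (n : ℝ) ^ 2 * |M| * ‖h‖ ^ 3) (line1 h2 x h) (line2 h2 x h) (fun s hs0 hs1 => by
    have h1 := qf_lip hL (x + s • h) x h
    have h3 : ‖x + s • h - x‖ ≤ ‖h‖ := by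
      rw [add_sub_cancel_left, norm_smul, Real.norm_eq_abs, abs_of_nonneg hs0]
      exact mul_le_of_le_one_left (norm_nonneg _) hs1
    have h4 : (n : ℝ) ^ 2 * |M| * ‖x + s • h - x‖ * ‖h‖ ^ 2 ≤ (n : ℝ) ^ 2 * |M| * ‖h‖ * ‖h‖ ^ 2 := by gcongr
    have h5 : (n : ℝ) ^ 2 * |M| * ‖h‖ * ‖h‖ ^ 2 = (n : ℝ) ^ 2 * |M| * ‖h‖ ^ 3 := by ring
    linarith)
  simpa using this

/-- the quadratic form of `τ` -/
noncomputable def qq (ψ F : E n → ℝ) (x : E n) : ℝ := ∑ i, ∑ j, tau ψ x i j * pd i F x * pd j F x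

open Matrix in
/-- completing the square -/
theorem square_nonneg {H : Matrix (Fin n) (Fin n) ℝ} (hH : H.PosDef) (p v : Fin n → ℝ) (t : ℝ) :
    0 ≤ (v ⬝ᵥ (H *ᵥ v)) / 2 + t * (p ⬝ᵥ v) + t ^ 2 / 2 * (p ⬝ᵥ (H⁻¹ *ᵥ p)) := by
  have hdet : IsUnit H.det := isUnit_iff_ne_zero.2 hH.det_pos.ne'
  have hs : Hᵀ = H := by
    have := hH.isHermitian
    rwa [Matrix.IsHermitian, Matrix.conjTranspose_eq_transpose_of_trivial] at this
  have h0 : 0 ≤ (v + t • (H⁻¹ *ᵥ p)) ⬝ᵥ (H *ᵥ (v + t • (H⁻¹ *ᵥ p))) := by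
    have := hH.posSemidef.dotProduct_mulVec_nonneg (v + t • (H⁻¹ *ᵥ p))
    simpa using this
  have h1 : H *ᵥ (H⁻¹ *ᵥ p) = p := by
    rw [Matrix.mulVec_mulVec, Matrix.mul_nonsing_inv _ hdet, Matrix.one_mulVec]
  have h2 : (H⁻¹ *ᵥ p) ⬝ᵥ (H *ᵥ v) = p ⬝ᵥ v := by
    rw [Matrix.dotProduct_mulVec, ← Matrix.mulVec_transpose, hs, h1]
  have h3 : (v + t • (H⁻¹ *ᵥ p)) ⬝ᵥ (H *ᵥ (v + t • (H⁻¹ *ᵥ p))) =
      v ⬝ᵥ (H *ᵥ v) + 2 * t * (p ⬝ᵥ v) + t ^ 2 * (p ⬝ᵥ (H⁻¹ *ᵥ p)) := by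
    rw [Matrix.mulVec_add, Matrix.mulVec_smul, h1, add_dotProduct, dotProduct_add, dotProduct_add,
      smul_dotProduct, smul_dotProduct, dotProduct_smul, dotProduct_smul, h2, smul_eq_mul, smul_eq_mul,
      smul_eq_mul, smul_eq_mul, dotProduct_comm v p, dotProduct_comm (H⁻¹ *ᵥ p) p]
    ring
  rw [h3] at h0
  linarith

theorem hess_posDef {ψ : E n → ℝ} {c : ℝ} (hc : 0 < c) (h2 : ContDiff ℝ 2 ψ)
    (hl : ∀ x v, c * ‖v‖ ^ 2 ≤ qf (hess ψ x) v) (x : E n) : (hess ψ x).PosDef :=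
  Loc.posDef_of_qf (fun i j => hess_symm h2 x i j) hc (fun v => hl x v)

theorem qq_eq (ψ F : E n → ℝ) (x : E n) :
    qq ψ F x = (fun i => pd i F x) ⬝ᵥ ((tau ψ x).mulVec (fun i => pd i F x)) := by
  unfold qq
  simp only [dotProduct, Matrix.mulVec, Finset.mul_sum]
  refine Finset.sum_congr rfl fun i _ => Finset.sum_congr rfl fun j _ => ?_
  ring

theorem sq_low {ψ F : E n → ℝ} {c : ℝ} (hc : 0 < c) (h2 : ContDiff ℝ 2 ψ)
    (hl : ∀ x v, c * ‖v‖ ^ 2 ≤ qf (hess ψ x) v) (x h : E n) (t : ℝ) :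
    0 ≤ qf (hess ψ x) h / 2 + t * fderiv ℝ F x h + t ^ 2 / 2 * qq ψ F x := by
  have h3 := square_nonneg (hess_posDef hc h2 hl x) (fun i => pd i F x) h.ofLp t
  rw [Loc.qf_eq, qq_eq, fderiv_eq_sum F x h]
  have e : (fun i => pd i F x) ⬝ᵥ h.ofLp = ∑ i, h i * pd i F x := by
    simp only [dotProduct]
    exact Finset.sum_congr rfl fun i _ => mul_comm _ _
  rw [e] at h3
  exact h3

theorem qq_nonneg {ψ F : E n → ℝ} {c : ℝ} (hc : 0 < c) (h2 : ContDiff ℝ 2 ψ)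
    (hl : ∀ x v, c * ‖v‖ ^ 2 ≤ qf (hess ψ x) v) (x : E n) : 0 ≤ qq ψ F x := by
  have h3 := sq_low (F := F) hc h2 hl x 0 1
  have e1 : qf (hess ψ x) 0 = 0 := by simp [qf]
  rw [e1, map_zero] at h3
  linarith

/-- the key one-sided expansion -/
theorem key {ψ F : E n → ℝ} {c M K B : ℝ} (hc : 0 < c) (h2 : ContDiff ℝ 2 ψ)
    (hl : ∀ x v, c * ‖v‖ ^ 2 ≤ qf (hess ψ x) v)
    (hL : ∀ i j x y, |hess ψ x i j - hess ψ y i j| ≤ M * ‖x - y‖) (hK : 0 ≤ K) (hB : 0 ≤ B)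
    (hF : ∀ x h, |F (x + h) - F x| ≤ K * ‖h‖)
    (hF2 : ∀ x h, |F (x + h) - F x - fderiv ℝ F x h| ≤ B * ‖h‖ ^ 2) :
    ∃ A : ℝ, 0 ≤ A ∧ ∀ (x h : E n) (t : ℝ), ψ x + fderiv ℝ ψ x h + t * F x - t ^ 2 / 2 * qq ψ F x
      - A * |t| ^ 3 ≤ ψ (x + h) + t * F (x + h) := by
  set R : ℝ := 2 * K / c with hR
  have hR0 : 0 ≤ R := by positivity
  refine ⟨(n : ℝ) ^ 2 * |M| * R ^ 3 / 2 + B * R ^ 2, by positivity, fun x h t => ?_⟩
  have ht := abs_nonneg t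
  have hh := norm_nonneg h
  have hA : 0 ≤ (n : ℝ) ^ 2 * |M| * R ^ 3 / 2 + B * R ^ 2 := by positivity
  have b1 : -(|t| * (K * ‖h‖)) ≤ t * (F (x + h) - F x) := by
    have : |t * (F (x + h) - F x)| ≤ |t| * (K * ‖h‖) := by
      rw [abs_mul]
      exact mul_le_mul_of_nonneg_left (hF x h) ht
    exact (abs_le.1 this).1
  by_cases hc1 : R * |t| ≤ ‖h‖
  · have h3 := low1 h2 hl x h
    have hq := qq_nonneg (F := F) hc h2 hl x
    have h4 : |t| * (K * ‖h‖) ≤ c * ‖h‖ ^ 2 / 2 := by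
      have h5 : 2 * K * |t| ≤ c * ‖h‖ := by
        have := mul_le_mul_of_nonneg_left hc1 hc.le
        have e : c * (R * |t|) = 2 * K * |t| := by rw [hR]; field_simp
        linarith
      nlinarith
    have h6 : 0 ≤ t ^ 2 / 2 * qq ψ F x := by positivity
    have h7 : 0 ≤ ((n : ℝ) ^ 2 * |M| * R ^ 3 / 2 + B * R ^ 2) * |t| ^ 3 := by positivity
    nlinarith
  · push Not at hc1
    have h3 := low2 h2 hL x h
    have h4 := sq_low (F := F) hc h2 hl x h t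
    have b2 : -(|t| * (B * ‖h‖ ^ 2)) ≤ t * (F (x + h) - F x - fderiv ℝ F x h) := by
      have : |t * (F (x + h) - F x - fderiv ℝ F x h)| ≤ |t| * (B * ‖h‖ ^ 2) := by
        rw [abs_mul]
        exact mul_le_mul_of_nonneg_left (hF2 x h) ht
      exact (abs_le.1 this).1
    have h5 : ‖h‖ ^ 3 ≤ (R * |t|) ^ 3 := pow_le_pow_left₀ hh hc1.le 3
    have h6 : ‖h‖ ^ 2 ≤ (R * |t|) ^ 2 := pow_le_pow_left₀ hh hc1.le 2
    have h7 : (n : ℝ) ^ 2 * |M| * ‖h‖ ^ 3 ≤ (n : ℝ) ^ 2 * |M| * (R * |t|) ^ 3 := by gcongr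
    have h8 : |t| * (B * ‖h‖ ^ 2) ≤ |t| * (B * (R * |t|) ^ 2) := by gcongr
    have e1 : ((n : ℝ) ^ 2 * |M| * R ^ 3 / 2 + B * R ^ 2) * |t| ^ 3 =
      (n : ℝ) ^ 2 * |M| * (R * |t|) ^ 3 / 2 + |t| * (B * (R * |t|) ^ 2) := by ring
    rw [e1]
    nlinarith

end Vale.Agent.P254.SL.Gap
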