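import Vale.Agent.P254.SL.Gap

/-! # P254/SL, S2c: Prekopa-Leindler for the Legendre duals of `ψ ± t F` (helper700). -/

open MeasureTheory Filter Set
open scoped Topology

namespace Vale.Agent.P254.SL.Gap

open Vale.Agent.P227.M

variable {n : ℕ}

/-- the gradient -/
noncomputable def gr (ψ : E n → ℝ) (x : E n) : E n :=
  (InnerProductSpace.toDual ℝ (E n)).symm (fderiv ℝ ψ x)

theorem inner_gr (ψ : E n → ℝ) (x v : E n) : inner ℝ (gr ψ x) v = fderiv ℝ ψ x v :=
  InnerProductSpace.toDual_symm_apply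

theorem gr_grad {ψ : E n → ℝ} (h2 : ContDiff ℝ 2 ψ) (x : E n) : HasGradientAt ψ (gr ψ x) x := by
  have h := ((h2.differentiable (by norm_num)) x).hasGradientAt
  exact h

theorem gr_contDiff {ψ : E n → ℝ} (h2 : ContDiff ℝ 2 ψ) : ContDiff ℝ 1 (gr ψ) := by
  have h1 : ContDiff ℝ 1 (fderiv ℝ ψ) := h2.fderiv_right (by norm_num)
  exact (InnerProductSpace.toDual ℝ (E n)).symm.toContinuousLinearEquiv.contDiff.comp h1

theorem gr_mono {ψ : E n → ℝ} {c : ℝ} (h2 : ContDiff ℝ 2 ψ) (hl : ∀ x v, c * ‖v‖ ^ 2 ≤ qf (hess ψ x) v)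
    (x y : E n) : c * ‖x - y‖ ^ 2 ≤ inner ℝ (gr ψ x - gr ψ y) (x - y) := by
  have a1 := low1 h2 hl x (y - x)
  have a2 := low1 h2 hl y (x - y)
  rw [add_sub_cancel] at a1 a2
  rw [inner_sub_left, inner_gr, inner_gr]
  have e : fderiv ℝ ψ x (y - x) = - fderiv ℝ ψ x (x - y) := by rw [← map_neg, neg_sub]
  have e2 : ‖y - x‖ = ‖x - y‖ := norm_sub_rev _ _
  rw [e, e2] at a1
  linarith

theorem gr_det {ψ : E n → ℝ} (h2 : ContDiff ℝ 2 ψ) (x : E n) :
    (hess ψ x).det = (fderiv ℝ (gr ψ) x).det := by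
  have h := DUAL.dual_det (gr_grad h2) (fun x => (((gr_contDiff h2).differentiable (by norm_num)) x).hasFDerivAt) x
  exact h

theorem abs_inv_le' {ψ : E n → ℝ} {c : ℝ} (hc : 0 < c) (h2 : ContDiff ℝ 2 ψ)
    (hl : ∀ x v, c * ‖v‖ ^ 2 ≤ qf (hess ψ x) v) (x : E n) (i j : Fin n) : |tau ψ x i j| ≤ 1 / c :=
  Loc.abs_inv_le (hess_posDef hc h2 hl x) hc (hl x) i j

theorem tau_lip' {ψ : E n → ℝ} {c M : ℝ} (hc : 0 < c) (h2 : ContDiff ℝ 2 ψ)
    (hl : ∀ x v, c * ‖v‖ ^ 2 ≤ qf (hess ψ x) v)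
    (hL : ∀ i j x y, |hess ψ x i j - hess ψ y i j| ≤ M * ‖x - y‖) (x y : E n) (i j : Fin n) :
    |tau ψ x i j - tau ψ y i j| ≤ (n : ℝ) ^ 2 * (1 / c) ^ 2 * M * ‖x - y‖ := by
  have := Loc.abs_inv_sub_le (hess_posDef hc h2 hl x) (hess_posDef hc h2 hl y) hc (hl x) (hl y)
    (fun i j => hL i j x y) i j
  rw [mul_assoc]
  exact this

theorem tau_cont' {ψ : E n → ℝ} {c M : ℝ} (hc : 0 < c) (h2 : ContDiff ℝ 2 ψ)
    (hl : ∀ x v, c * ‖v‖ ^ 2 ≤ qf (hess ψ x) v)
    (hL : ∀ i j x y, |hess ψ x i j - hess ψ y i j| ≤ M * ‖x - y‖) (i j : Fin n) :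
    Continuous (fun x => tau ψ x i j) := by
  have : LipschitzWith (Real.toNNReal ((n : ℝ) ^ 2 * (1 / c) ^ 2 * M)) (fun x => tau ψ x i j) := by
    refine LipschitzWith.of_dist_le' fun x y => ?_
    rw [Real.dist_eq, dist_eq_norm]
    exact tau_lip' hc h2 hl hL x y i j
  exact this.continuous

theorem sum_pd_eq (ψ : E n → ℝ) (x : E n) : (∑ i, x i * pd i ψ x) = inner ℝ (gr ψ x) x := by
  rw [inner_gr, fderiv_eq_sum]

/-- Prekopa-Leindler for the duals of `ψ ± t F` -/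
theorem pl_main {ψ V F : E n → ℝ} {c C M K B : ℝ} (hc : 0 < c) (h2 : ContDiff ℝ 2 ψ)
    (hl : ∀ x v, c * ‖v‖ ^ 2 ≤ qf (hess ψ x) v)
    (hL : ∀ i j x y, |hess ψ x i j - hess ψ y i j| ≤ M * ‖x - y‖)
    (hma : ∀ x, V x = (∑ i, x i * pd i ψ x) - ψ x - Real.log (hess ψ x).det)
    (hVi : Integrable (fun x => Real.exp (-V x)))
    (hFc : Continuous F) (hqc : Continuous (qq ψ F)) {A : ℝ}
    (hA : ∀ (x h : E n) (t : ℝ), ψ x + fderiv ℝ ψ x h + t * F x - t ^ 2 / 2 * qq ψ F x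
      - A * |t| ^ 3 ≤ ψ (x + h) + t * F (x + h)) {B0 Q : ℝ} (hB0 : ∀ x, |F x| ≤ B0)
      (hQ : ∀ x, |qq ψ F x| ≤ Q) (t : ℝ) :
    (∫ x, Real.exp (t * F x - t ^ 2 / 2 * qq ψ F x - A * |t| ^ 3) * Real.exp (-V x)) *
      (∫ x, Real.exp (-(t * F x) - t ^ 2 / 2 * qq ψ F x - A * |t| ^ 3) * Real.exp (-V x))
      ≤ (∫ x, Real.exp (-V x)) ^ 2 := by
  have hmono := gr_mono h2 hl
  have hg := gr_contDiff h2
  have hd : Differentiable ℝ (gr ψ) := hg.differentiable (by norm_num)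
  have hinj := LIM.injective_of_mono hc hmono
  have hsur := LIM.surjective_of_mono hc hg hmono
  obtain ⟨X, hX⟩ : ∃ X : E n → E n, ∀ y, gr ψ (X y) = y := ⟨fun y => (hsur y).choose,
    fun y => (hsur y).choose_spec⟩
  have hX' : ∀ x, X (gr ψ x) = x := fun x => hinj (hX _)
  have hXlip : LipschitzWith (Real.toNNReal c⁻¹) X := by
    refine LipschitzWith.of_dist_le_mul fun x y => ?_
    have h1 := (LIM.antilipschitz_of_mono hc hmono).le_mul_dist (X x) (X y)
    rwa [hX, hX] at h1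
  have hXc := hXlip.continuous
  have hψc : Continuous ψ := h2.continuous
  -- the dual potential
  obtain ⟨φ, hφ⟩ : ∃ φ : E n → ℝ, φ = fun y => inner ℝ (X y) y - ψ (X y) := ⟨_, rfl⟩
  have hφc : Continuous φ := by
    rw [hφ]
    exact (hXc.inner continuous_id).sub (hψc.comp hXc)
  have hdetpos : ∀ x, 0 < (fderiv ℝ (gr ψ) x).det := LIM.det_pos_of_mono hc hd hmono
  have hVφ : ∀ x, -V x = -φ (gr ψ x) + Real.log (fderiv ℝ (gr ψ) x).det := by
    intro x
    have e2 : φ (gr ψ x) = inner ℝ x (gr ψ x) - ψ x := by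
      rw [hφ]
      show inner ℝ (X (gr ψ x)) (gr ψ x) - ψ (X (gr ψ x)) = _
      rw [hX']
    rw [hma x, e2, sum_pd_eq, real_inner_comm, gr_det h2]
    ring
  -- change of variables
  have hcv : ∀ P : E n → ℝ, ∫ y, Real.exp (-φ y + P (X y)) = ∫ x, Real.exp (P x) * Real.exp (-V x) := by
    intro P
    rw [LIM.integral_comp_mul_det hc hg hmono (fun y => Real.exp (-φ y + P (X y)))]
    refine integral_congr_ae (Eventually.of_forall fun x => ?_)
    show Real.exp (-φ (gr ψ x) + P (X (gr ψ x))) * (fderiv ℝ (gr ψ) x).det = Real.exp (P x) * Real.exp (-V x)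
    have e1 := hVφ x
    rw [e1, Real.exp_add (-φ (gr ψ x)) (Real.log _), Real.exp_log (hdetpos x), hX', Real.exp_add]
    ring
  have hci : ∀ P : E n → ℝ, Integrable (fun x => Real.exp (P x) * Real.exp (-V x)) →
      Integrable (fun y => Real.exp (-φ y + P (X y))) := by
    intro P hP
    have h1 := integrableOn_image_iff_integrableOn_abs_det_fderiv_smul (volume : Measure (E n))
      (s := univ) (f := gr ψ) MeasurableSet.univ (f' := fderiv ℝ (gr ψ))
      (fun x _ => (hd x).hasFDerivAt.hasFDerivWithinAt) hinj.injOn (fun y => Real.exp (-φ y + P (X y)))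
    rw [image_univ, hsur.range_eq, integrableOn_univ, integrableOn_univ] at h1
    rw [h1]
    refine hP.congr (Eventually.of_forall fun x => ?_)
    show Real.exp (P x) * Real.exp (-V x) = |(fderiv ℝ (gr ψ) x).det| • Real.exp (-φ (gr ψ x) + P (X (gr ψ x)))
    have e1 := hVφ x
    rw [e1, Real.exp_add (-φ (gr ψ x)) (Real.log _), Real.exp_log (hdetpos x), hX', Real.exp_add,
      abs_of_pos (hdetpos x), smul_eq_mul]
    ring
  have hVc : Continuous (fun x => Real.exp (-V x)) := by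
    have h3 : (fun x => Real.exp (-V x)) = fun x => Real.exp (-φ (gr ψ x)) * (fderiv ℝ (gr ψ) x).det := by
      funext x
      have e1 := hVφ x
      rw [e1, Real.exp_add, Real.exp_log (hdetpos x)]
    rw [h3]
    exact (Real.continuous_exp.comp ((hφc.comp hg.continuous).neg)).mul
      (ContinuousLinearMap.continuous_det.comp (hg.continuous_fderiv (by norm_num)))
  have hint : ∀ P : E n → ℝ, Continuous P → (∃ S : ℝ, ∀ x, P x ≤ S) →
      Integrable (fun x => Real.exp (P x) * Real.exp (-V x)) := by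
    rintro P hP ⟨S, hS⟩
    refine (hVi.const_mul (Real.exp S)).mono' ((Real.continuous_exp.comp hP).mul hVc).aestronglyMeasurable
      (Eventually.of_forall fun x => ?_)
    rw [Real.norm_eq_abs, abs_of_pos (mul_pos (Real.exp_pos _) (Real.exp_pos _))]
    exact mul_le_mul_of_nonneg_right (Real.exp_le_exp.2 (hS x)) (Real.exp_pos _).le
  -- the two perturbations
  set P1 : E n → ℝ := fun x => t * F x - t ^ 2 / 2 * qq ψ F x - A * |t| ^ 3 with hP1
  set P2 : E n → ℝ := fun x => -(t * F x) - t ^ 2 / 2 * qq ψ F x - A * |t| ^ 3 with hP2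
  have hP1c : Continuous P1 := by rw [hP1]; fun_prop
  have hP2c : Continuous P2 := by rw [hP2]; fun_prop
  have bF : ∀ x, |t * F x| ≤ |t| * B0 := fun x => by
    rw [abs_mul]; exact mul_le_mul_of_nonneg_left (hB0 x) (abs_nonneg t)
  have bQ : ∀ x, |t ^ 2 / 2 * qq ψ F x| ≤ t ^ 2 / 2 * Q := fun x => by
    rw [abs_mul, abs_of_nonneg (by positivity : (0:ℝ) ≤ t ^ 2 / 2)]
    exact mul_le_mul_of_nonneg_left (hQ x) (by positivity)
  have hi1 := hint P1 hP1c ⟨|t| * B0 + t ^ 2 / 2 * Q - A * |t| ^ 3, fun x => by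
    have h1 := abs_le.1 (bF x)
    have h3 := abs_le.1 (bQ x)
    simp only [hP1]
    linarith [h1.2, h3.1]⟩
  have hi2 := hint P2 hP2c ⟨|t| * B0 + t ^ 2 / 2 * Q - A * |t| ^ 3, fun x => by
    have h1 := abs_le.1 (bF x)
    have h3 := abs_le.1 (bQ x)
    simp only [hP2]
    linarith [h1.1, h3.1]⟩
  have hi0 : Integrable (fun y => Real.exp (-φ y)) := by
    have := hci (fun _ => 0) (by simpa using hVi)
    simpa using this
  have hw := hcv (fun _ => 0)
  simp only [add_zero, Real.exp_zero, one_mul] at hw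
  have main := P347.pl_exp_real (E := E n) (A := fun y => -φ y + P1 (X y)) (B := fun y => -φ y + P2 (X y))
    (C := fun y => -φ y) (hφc.neg.add (hP1c.comp hXc)) (hφc.neg.add (hP2c.comp hXc)) hφc.neg
    (hci P1 hi1) (hci P2 hi2) hi0 (fun y0 y1 => by
      set z : E n := X ((2 : ℝ)⁻¹ • (y0 + y1)) with hz
      have k1 := hA (X y0) (z - X y0) t
      have k2 := hA (X y1) (z - X y1) (-t)
      rw [add_sub_cancel, ← inner_gr, hX, inner_sub_right] at k1
      rw [add_sub_cancel, ← inner_gr, hX, inner_sub_right, abs_neg] at k2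
      have e1 : φ ((2 : ℝ)⁻¹ • (y0 + y1)) = (2 : ℝ)⁻¹ * (inner ℝ y0 z + inner ℝ y1 z) - ψ z := by
        rw [hφ]
        show inner ℝ z ((2 : ℝ)⁻¹ • (y0 + y1)) - ψ z = _
        rw [inner_smul_right, inner_add_right, real_inner_comm z y0, real_inner_comm z y1]
      have e2 : φ y0 = inner ℝ y0 (X y0) - ψ (X y0) := by
        rw [hφ]
        show inner ℝ (X y0) y0 - ψ (X y0) = _
        rw [real_inner_comm]
      have e3 : φ y1 = inner ℝ y1 (X y1) - ψ (X y1) := by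
        rw [hφ]
        show inner ℝ (X y1) y1 - ψ (X y1) = _
        rw [real_inner_comm]
      simp only [hP1, hP2]
      rw [e1, e2, e3]
      have e4 : (-t) ^ 2 = t ^ 2 := by ring
      rw [e4] at k2
      linarith)
  rw [hcv P1, hcv P2, hw] at main
  exact main

end Vale.Agent.P254.SL.Gap
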