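import Vale.Agent.P254.SL.Gap2

/-! # P254/SL, S2c: the second order expansion (helper700). -/

open MeasureTheory Filter Set
open scoped Topology

namespace Vale.Agent.P254.SL.Gap

open Vale.Agent.P227.M

variable {n : ℕ}

theorem exp_low (s : ℝ) : 1 + s + s ^ 2 / 2 - |s| ^ 3 ≤ Real.exp s := by
  rcases le_or_gt 0 s with hs | hs
  · have h1 := Real.quadratic_le_exp_of_nonneg hs
    have h2 : 0 ≤ |s| ^ 3 := by positivity
    linarith
  · -- e^s for negative s
    have habs : |s| = -s := abs_of_neg hs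
    rw [habs]
    by_cases h1 : -1 ≤ s
    · have h2 := Real.exp_bound (x := s) (abs_le.2 ⟨h1, by linarith⟩) (n := 3) (by norm_num)
      have h3 := (abs_le.1 h2).1
      simp only [Finset.sum_range_succ, Finset.sum_range_zero, Nat.factorial] at h3
      rw [habs] at h3
      norm_num at h3
      have h4 : 0 ≤ (-s) ^ 3 := by
        have : 0 ≤ -s := by linarith
        positivity
      nlinarith
    · push Not at h1
      have h2 := Real.exp_pos s
      have h3 : 1 + s + s ^ 2 / 2 - (-s) ^ 3 ≤ 0 := by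
        have h4 : 1 < -s := by linarith
        nlinarith [mul_pos (sub_pos.2 h4) (sub_pos.2 h4), sq_nonneg s]
      linarith

/-- pointwise lower bound of the perturbed exponential -/
theorem pt_low {t f q B0 Q : ℝ} (ht0 : 0 ≤ t) (ht1 : t ≤ 1) (hf : |f| ≤ B0) (hq : |q| ≤ Q) :
    1 + t * f + t ^ 2 / 2 * (f ^ 2 - q) - (B0 * Q / 2 + (B0 + Q / 2) ^ 3) * t ^ 3
      ≤ Real.exp (t * f - t ^ 2 / 2 * q) := by
  have hB : 0 ≤ B0 := (abs_nonneg f).trans hf
  have hQ : 0 ≤ Q := (abs_nonneg q).trans hq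
  have h1 := exp_low (t * f - t ^ 2 / 2 * q)
  have h2 : |t * f - t ^ 2 / 2 * q| ≤ t * (B0 + Q / 2) := by
    calc |t * f - t ^ 2 / 2 * q| ≤ |t * f| + |t ^ 2 / 2 * q| := abs_sub _ _
      _ = t * |f| + t ^ 2 / 2 * |q| := by
          rw [abs_mul, abs_mul, abs_of_nonneg ht0, abs_of_nonneg (by positivity : (0:ℝ) ≤ t ^ 2 / 2)]
      _ ≤ t * B0 + t ^ 2 / 2 * Q := by gcongr
      _ ≤ t * B0 + t / 2 * Q := by
          have : t ^ 2 ≤ t := by nlinarith
          nlinarith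
      _ = t * (B0 + Q / 2) := by ring
  have h3 : |t * f - t ^ 2 / 2 * q| ^ 3 ≤ (t * (B0 + Q / 2)) ^ 3 := pow_le_pow_left₀ (abs_nonneg _) h2 3
  have h4 : f * q ≤ B0 * Q := (le_abs_self _).trans (by rw [abs_mul]; exact mul_le_mul hf hq (abs_nonneg _) hB)
  have h5 : (t * f - t ^ 2 / 2 * q) ^ 2 / 2 = t ^ 2 / 2 * f ^ 2 - t ^ 3 / 2 * (f * q) + t ^ 4 / 8 * q ^ 2 := by ring
  have h6 : 0 ≤ t ^ 4 / 8 * q ^ 2 := by positivity
  have h7 : t ^ 3 / 2 * (f * q) ≤ t ^ 3 / 2 * (B0 * Q) := mul_le_mul_of_nonneg_left h4 (by positivity)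
  have h8 : (t * (B0 + Q / 2)) ^ 3 = (B0 + Q / 2) ^ 3 * t ^ 3 := by ring
  nlinarith

/-- choice of a small parameter -/
theorem exists_small {S D ρ : ℝ} (hS : 1 ≤ S) (hD : 0 ≤ D) (hρ : 0 < ρ) :
    ∃ t : ℝ, 0 < t ∧ t * S ≤ 1 ∧ D * t < ρ := by
  have hS0 : 0 < S := by linarith
  refine ⟨min (1 / S) (ρ / (2 * (D + 1))), by positivity, ?_, ?_⟩
  · calc min (1 / S) _ * S ≤ 1 / S * S := mul_le_mul_of_nonneg_right (min_le_left _ _) hS0.le
      _ = 1 := by field_simp
  · have h2 : min (1 / S) (ρ / (2 * (D + 1))) ≤ ρ / (2 * (D + 1)) := min_le_right _ _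
    have h3 : D * (ρ / (2 * (D + 1))) < ρ := by
      rw [mul_div_assoc', div_lt_iff₀ (by positivity)]
      nlinarith
    exact (mul_le_mul_of_nonneg_left h2 hD).trans_lt h3

/-- the second order consequence -/
theorem second_order {m r N A : ℝ} (hN : 0 ≤ N) (hA : 0 ≤ A)
    (H : ∀ t : ℝ, 0 < t → t ≤ 1 → ∃ a b : ℝ, 1 + t * m + t ^ 2 / 2 * r - N * t ^ 3 ≤ a ∧
      1 - t * m + t ^ 2 / 2 * r - N * t ^ 3 ≤ b ∧ a * b ≤ Real.exp (2 * A * t ^ 3)) : r - m ^ 2 ≤ 0 := by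
  by_contra hcon
  push Not at hcon
  have hm := abs_nonneg m
  have hr := abs_nonneg r
  obtain ⟨t, ht0, ht1, ht2⟩ := exists_small (S := |m| + |r| / 2 + N + 2 * A + 1) (D := 4 * A + 2 * N)
    (by linarith) (by positivity) hcon
  have e : t * (|m| + |r| / 2 + N + 2 * A + 1) = t * |m| + t * (|r| / 2) + t * N + t * (2 * A) + t := by ring
  rw [e] at ht1
  have p1 : 0 ≤ t * |m| := by positivity
  have p2 : 0 ≤ t * (|r| / 2) := by positivity
  have p3 : 0 ≤ t * N := by positivity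
  have p4 : 0 ≤ t * (2 * A) := by positivity
  have htS : t ≤ 1 := by linarith
  have hsq : t ^ 2 ≤ t := by
    have := mul_le_mul_of_nonneg_left htS ht0.le
    rw [mul_one] at this
    rw [pow_two]
    exact this
  have hcube : t ^ 3 ≤ t := by
    have h1 : t ^ 3 = t * t ^ 2 := by ring
    have h2 : t ^ 2 ≤ 1 := hsq.trans htS
    have := mul_le_mul_of_nonneg_left h2 ht0.le
    rw [mul_one] at this
    rw [h1]
    exact this
  have u1 : |t * m| ≤ t * |m| := by rw [abs_mul, abs_of_pos ht0]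
  have u2 : |t ^ 2 / 2 * r| ≤ t * (|r| / 2) := by
    rw [abs_mul, abs_of_nonneg (by positivity : (0:ℝ) ≤ t ^ 2 / 2)]
    have := mul_le_mul_of_nonneg_right hsq (by positivity : (0:ℝ) ≤ |r| / 2)
    linarith
  have u3 : N * t ^ 3 ≤ t * N := by
    have := mul_le_mul_of_nonneg_left hcube hN
    linarith
  have u4 : 2 * A * t ^ 3 ≤ t * (2 * A) := by
    have := mul_le_mul_of_nonneg_left hcube (by positivity : (0:ℝ) ≤ 2 * A)
    linarith
  obtain ⟨a, b, ha, hb, hab⟩ := H t ht0 htS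
  have v1 := abs_le.1 u1
  have v2 := abs_le.1 u2
  have hα0 : 0 ≤ 1 + t * m + t ^ 2 / 2 * r - N * t ^ 3 := by linarith [v1.1, v2.1]
  have hβ0 : 0 ≤ 1 - t * m + t ^ 2 / 2 * r - N * t ^ 3 := by linarith [v1.2, v2.1]
  have h1 : (1 + t * m + t ^ 2 / 2 * r - N * t ^ 3) * (1 - t * m + t ^ 2 / 2 * r - N * t ^ 3)
      ≤ Real.exp (2 * A * t ^ 3) := (mul_le_mul ha hb hβ0 (hα0.trans ha)).trans hab
  have h2 : (1 + t * m + t ^ 2 / 2 * r - N * t ^ 3) * (1 - t * m + t ^ 2 / 2 * r - N * t ^ 3) =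
      1 + t ^ 2 * (r - m ^ 2) - 2 * N * t ^ 3 + (t ^ 2 / 2 * r - N * t ^ 3) ^ 2 := by
    ring
  have h3 : Real.exp (2 * A * t ^ 3) ≤ 1 + 4 * A * t ^ 3 := by
    have h0 : 0 ≤ 2 * A * t ^ 3 := by positivity
    have h4 : |2 * A * t ^ 3| ≤ 1 := by
      rw [abs_of_nonneg h0]
      linarith
    have h5 := Real.abs_exp_sub_one_le h4
    have h6 := (abs_le.1 h5).2
    rw [abs_of_nonneg h0] at h6
    linarith
  have h4 : 0 ≤ (t ^ 2 / 2 * r - N * t ^ 3) ^ 2 := sq_nonneg _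
  have e5 : (4 * A + 2 * N) * t * t ^ 2 = 4 * A * t ^ 3 + 2 * N * t ^ 3 := by ring
  have h5 : (r - m ^ 2) * t ^ 2 ≤ (4 * A + 2 * N) * t * t ^ 2 := by
    have e6 : (r - m ^ 2) * t ^ 2 = t ^ 2 * (r - m ^ 2) := by ring
    rw [e5, e6]
    linarith
  have h6 : r - m ^ 2 ≤ (4 * A + 2 * N) * t := le_of_mul_le_mul_right h5 (by positivity)
  linarith

theorem abs_qq_le {ψ F : E n → ℝ} {c K : ℝ} (hc : 0 < c) (h2 : ContDiff ℝ 2 ψ)
    (hl : ∀ x v, c * ‖v‖ ^ 2 ≤ qf (hess ψ x) v) (hK : ∀ x, ‖fderiv ℝ F x‖ ≤ K) (x : E n) :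
    |qq ψ F x| ≤ (n : ℝ) ^ 2 * (1 / c * K * K) := by
  have hK0 : 0 ≤ K := (norm_nonneg _).trans (hK x)
  unfold qq
  calc |∑ i, ∑ j, tau ψ x i j * pd i F x * pd j F x|
      ≤ ∑ i, ∑ j, |tau ψ x i j * pd i F x * pd j F x| :=
        (Finset.abs_sum_le_sum_abs _ _).trans (Finset.sum_le_sum fun i _ => Finset.abs_sum_le_sum_abs _ _)
    _ ≤ ∑ _i : Fin n, ∑ _j : Fin n, 1 / c * K * K := by
        refine Finset.sum_le_sum fun i _ => Finset.sum_le_sum fun j _ => ?_
        rw [abs_mul, abs_mul]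
        have h1 := abs_inv_le' hc h2 hl x i j
        have h3 := (abs_pd_le_norm F x i).trans (hK x)
        have h4 := (abs_pd_le_norm F x j).trans (hK x)
        have : 0 ≤ 1 / c := by positivity
        gcongr
    _ = _ := by
        rw [Finset.sum_const, Finset.sum_const, Finset.card_univ, Fintype.card_fin, nsmul_eq_mul, nsmul_eq_mul]
        ring

/-- Brascamp-Lieb for `F` bounded with two bounded derivatives (in the weak form needed) -/
theorem gap_smooth {ψ V F : E n → ℝ} {c M K B B0 : ℝ} (hc : 0 < c) (h2 : ContDiff ℝ 2 ψ)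
    (hl : ∀ x v, c * ‖v‖ ^ 2 ≤ qf (hess ψ x) v)
    (hL : ∀ i j x y, |hess ψ x i j - hess ψ y i j| ≤ M * ‖x - y‖)
    (hma : ∀ x, V x = (∑ i, x i * pd i ψ x) - ψ x - Real.log (hess ψ x).det)
    (hVi : Integrable (fun x => Real.exp (-V x))) (hVc : Continuous V)
    (hK : 0 ≤ K) (hB : 0 ≤ B) (hF1 : ContDiff ℝ 1 F) (hFd : ∀ x, ‖fderiv ℝ F x‖ ≤ K)
    (hFl : ∀ x h, |F (x + h) - F x| ≤ K * ‖h‖)
    (hF2 : ∀ x h, |F (x + h) - F x - fderiv ℝ F x h| ≤ B * ‖h‖ ^ 2) (hB0 : ∀ x, |F x| ≤ B0) :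
    Ex V (fun x => F x ^ 2) - (Ex V F) ^ 2 ≤ Ex V (qq ψ F) := by
  obtain ⟨A, hA0, hA⟩ := key hc h2 hl hL hK hB hFl hF2
  have hFc : Continuous F := hF1.continuous
  have hpc : ∀ i, Continuous (pd i F) := fun i => by
    unfold pd
    exact (hF1.continuous_fderiv (by norm_num)).clm_apply continuous_const
  have hqc : Continuous (qq ψ F) := by
    unfold qq
    refine continuous_finsetSum _ fun i _ => continuous_finsetSum _ fun j _ => ?_
    exact ((tau_cont' hc h2 hl hL i j).mul (hpc i)).mul (hpc j)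
  have hQ := abs_qq_le (F := F) hc h2 hl hFd
  set Q : ℝ := (n : ℝ) ^ 2 * (1 / c * K * K) with hQdef
  have hB00 : 0 ≤ B0 := (abs_nonneg _).trans (hB0 0)
  have hQ0 : 0 ≤ Q := (abs_nonneg _).trans (hQ 0)
  set Z : ℝ := ∫ x, Real.exp (-V x) with hZ
  have hZ0 : 0 < Z := integral_exp_pos (f := fun x => -V x) hVi
  have hint : ∀ P : E n → ℝ, Continuous P → (∃ S : ℝ, ∀ x, |P x| ≤ S) →
      Integrable (fun x => P x * Real.exp (-V x)) := by
    rintro P hP ⟨S, hS⟩
    refine (hVi.const_mul S).mono' (hP.mul (Real.continuous_exp.comp hVc.neg)).aestronglyMeasurable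
      (Eventually.of_forall fun x => ?_)
    rw [Real.norm_eq_abs, abs_mul, Real.abs_exp]
    exact mul_le_mul_of_nonneg_right (hS x) (Real.exp_pos _).le
  set N : ℝ := B0 * Q / 2 + (B0 + Q / 2) ^ 3 with hN
  have hN0 : 0 ≤ N := by positivity
  -- lower bound for the normalised integrals
  have low : ∀ G : E n → ℝ, Continuous G → (∀ x, |G x| ≤ B0) → ∀ t : ℝ, 0 < t → t ≤ 1 →
      (1 + t * Ex V G + t ^ 2 / 2 * (Ex V (fun x => G x ^ 2) - Ex V (qq ψ F)) - N * t ^ 3) * Z ≤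
        ∫ x, Real.exp (t * G x - t ^ 2 / 2 * qq ψ F x) * Real.exp (-V x) := by
    intro G hG hGB t ht0 ht1
    have i1 := hint G hG ⟨B0, hGB⟩
    have i2 := hint (fun x => G x ^ 2) (hG.pow 2) ⟨B0 ^ 2, fun x => by
      rw [abs_pow]; exact pow_le_pow_left₀ (abs_nonneg _) (hGB x) 2⟩
    have i3 := hint (qq ψ F) hqc ⟨Q, hQ⟩
    have i4 : Integrable (fun x => Real.exp (t * G x - t ^ 2 / 2 * qq ψ F x) * Real.exp (-V x)) := by
      refine hint (fun x => Real.exp (t * G x - t ^ 2 / 2 * qq ψ F x)) (by fun_prop)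
        ⟨Real.exp (t * B0 + t ^ 2 / 2 * Q), fun x => ?_⟩
      rw [Real.abs_exp]
      refine Real.exp_le_exp.2 ?_
      have h1 := abs_le.1 (hGB x)
      have h3 := abs_le.1 (hQ x)
      nlinarith [mul_le_mul_of_nonneg_left h1.2 ht0.le, mul_le_mul_of_nonneg_left h3.1 (by positivity : (0:ℝ) ≤ t ^ 2 / 2)]
    have e1 : (1 + t * Ex V G + t ^ 2 / 2 * (Ex V (fun x => G x ^ 2) - Ex V (qq ψ F)) - N * t ^ 3) * Z =
        ∫ x, (1 + t * G x + t ^ 2 / 2 * (G x ^ 2 - qq ψ F x) - N * t ^ 3) * Real.exp (-V x) := by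
      have e2 : ∀ x, (1 + t * G x + t ^ 2 / 2 * (G x ^ 2 - qq ψ F x) - N * t ^ 3) * Real.exp (-V x) =
          ((fun x => (1 - N * t ^ 3) * Real.exp (-V x)) + ((fun x => t * (G x * Real.exp (-V x))) +
            ((fun x => t ^ 2 / 2 * (G x ^ 2 * Real.exp (-V x))) -
              (fun x => t ^ 2 / 2 * (qq ψ F x * Real.exp (-V x))))) : E n → ℝ) x := fun x => by
        simp only [Pi.add_apply, Pi.sub_apply]
        ring
      rw [integral_congr_ae (Eventually.of_forall e2), integral_add' (hVi.const_mul _)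
        ((i1.const_mul _).add ((i2.const_mul _).sub (i3.const_mul _))),
        integral_add' (i1.const_mul _) ((i2.const_mul _).sub (i3.const_mul _)),
        integral_sub' (i2.const_mul _) (i3.const_mul _), integral_const_mul, integral_const_mul,
        integral_const_mul, integral_const_mul]
      unfold Ex
      rw [← hZ]
      field_simp
      ring
    rw [e1]
    refine integral_mono ?_ i4 (fun x => ?_)
    · exact hint _ (by fun_prop) ⟨1 + t * B0 + t ^ 2 / 2 * (B0 ^ 2 + Q) + N * t ^ 3, fun x => by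
        have h1 := hGB x
        have h3 := hQ x
        have h4 : |G x ^ 2| ≤ B0 ^ 2 := by rw [abs_pow]; exact pow_le_pow_left₀ (abs_nonneg _) h1 2
        have t2 : 0 ≤ t ^ 2 / 2 := by positivity
        have t3 : 0 ≤ N * t ^ 3 := by positivity
        have a1 := abs_le.1 h1
        have a3 := abs_le.1 h3
        have a4 := abs_le.1 h4
        have b1 := mul_le_mul_of_nonneg_left a1.2 ht0.le
        have b1' := mul_le_mul_of_nonneg_left a1.1 ht0.le
        have b2 := mul_le_mul_of_nonneg_left a4.2 t2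
        have b2' := mul_le_mul_of_nonneg_left a4.1 t2
        have b3 := mul_le_mul_of_nonneg_left a3.2 t2
        have b3' := mul_le_mul_of_nonneg_left a3.1 t2
        refine abs_le.2 ⟨by nlinarith, by nlinarith⟩⟩
    · exact mul_le_mul_of_nonneg_right (pt_low ht0.le ht1 (hGB x) (hQ x)) (Real.exp_pos _).le
  have hneg : Ex V (fun x => -F x) = - Ex V F := by
    unfold Ex
    rw [← neg_div]
    congr 1
    rw [← integral_neg]
    exact integral_congr_ae (Eventually.of_forall fun x => by simp)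
  have fin : (Ex V (fun x => F x ^ 2) - Ex V (qq ψ F)) - (Ex V F) ^ 2 ≤ 0 := by
    refine second_order (m := Ex V F) (r := Ex V (fun x => F x ^ 2) - Ex V (qq ψ F)) hN0 hA0 ?_
    intro t ht0 ht1
    have l1 := low F hFc hB0 t ht0 ht1
    have l2 := low (fun x => -F x) hFc.neg (fun x => by rw [abs_neg]; exact hB0 x) t ht0 ht1
    rw [hneg] at l2
    have e0 : (fun x => (-F x) ^ 2) = fun x => F x ^ 2 := by funext x; ring
    rw [e0] at l2
    have hpl := pl_main (V := V) (C := 0) (K := K) (B := B) hc h2 hl hL hma hVi hFc hqc hA hB0 hQ t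
    have hexp : 0 < Real.exp (A * t ^ 3) := Real.exp_pos _
    have habs : |t| = t := abs_of_pos ht0
    rw [habs] at hpl
    refine ⟨(∫ x, Real.exp (t * F x - t ^ 2 / 2 * qq ψ F x) * Real.exp (-V x)) / Z,
      (∫ x, Real.exp (t * (-F x) - t ^ 2 / 2 * qq ψ F x) * Real.exp (-V x)) / Z, ?_, ?_, ?_⟩
    · rw [le_div_iff₀ hZ0]; exact l1
    · rw [le_div_iff₀ hZ0]
      refine le_trans (le_of_eq ?_) l2
      ring
    · have g1 : ∫ x, Real.exp (t * F x - t ^ 2 / 2 * qq ψ F x - A * t ^ 3) * Real.exp (-V x) =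
          Real.exp (-(A * t ^ 3)) * ∫ x, Real.exp (t * F x - t ^ 2 / 2 * qq ψ F x) * Real.exp (-V x) := by
        rw [← integral_const_mul]
        refine integral_congr_ae (Eventually.of_forall fun x => ?_)
        show Real.exp (t * F x - t ^ 2 / 2 * qq ψ F x - A * t ^ 3) * Real.exp (-V x) =
          Real.exp (-(A * t ^ 3)) * (Real.exp (t * F x - t ^ 2 / 2 * qq ψ F x) * Real.exp (-V x))
        rw [sub_eq_add_neg (t * F x - t ^ 2 / 2 * qq ψ F x), Real.exp_add]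
        ring
      have g2 : ∫ x, Real.exp (-(t * F x) - t ^ 2 / 2 * qq ψ F x - A * t ^ 3) * Real.exp (-V x) =
          Real.exp (-(A * t ^ 3)) * ∫ x, Real.exp (t * (-F x) - t ^ 2 / 2 * qq ψ F x) * Real.exp (-V x) := by
        rw [← integral_const_mul]
        refine integral_congr_ae (Eventually.of_forall fun x => ?_)
        show Real.exp (-(t * F x) - t ^ 2 / 2 * qq ψ F x - A * t ^ 3) * Real.exp (-V x) =
          Real.exp (-(A * t ^ 3)) * (Real.exp (t * (-F x) - t ^ 2 / 2 * qq ψ F x) * Real.exp (-V x))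
        have e5 : t * (-F x) - t ^ 2 / 2 * qq ψ F x = -(t * F x) - t ^ 2 / 2 * qq ψ F x := by ring
        rw [e5, sub_eq_add_neg (-(t * F x) - t ^ 2 / 2 * qq ψ F x), Real.exp_add]
        ring
      rw [g1, g2] at hpl
      set I1 := ∫ x, Real.exp (t * F x - t ^ 2 / 2 * qq ψ F x) * Real.exp (-V x) with hI1
      set I2 := ∫ x, Real.exp (t * (-F x) - t ^ 2 / 2 * qq ψ F x) * Real.exp (-V x) with hI2
      have g3 : Real.exp (-(A * t ^ 3)) * I1 * (Real.exp (-(A * t ^ 3)) * I2) =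
          (Real.exp (2 * A * t ^ 3))⁻¹ * (I1 * I2) := by
        have : (Real.exp (2 * A * t ^ 3))⁻¹ = Real.exp (-(A * t ^ 3)) * Real.exp (-(A * t ^ 3)) := by
          rw [← Real.exp_neg, ← Real.exp_add]
          congr 1
          ring
        rw [this]; ring
      rw [g3, inv_mul_le_iff₀ (Real.exp_pos _)] at hpl
      rw [div_mul_div_comm, div_le_iff₀ (by positivity)]
      calc I1 * I2 ≤ Real.exp (2 * A * t ^ 3) * Z ^ 2 := hpl
        _ = _ := by ring
  linarith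

end Vale.Agent.P254.SL.Gap
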