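import Vale.Agent.P254.SL.Gap3
import Vale.Agent.P227.M.DENS.Moll

/-! # P254/SL, S2c: Brascamp-Lieb for bounded Lipschitz functions (helper700). -/

open MeasureTheory Filter Set
open scoped Topology ContDiff

namespace Vale.Agent.P254.SL.Gap

open Vale.Agent.P227.M

variable {n : ℕ}

theorem moll_eq (η : E n → ℝ) (G : E n → (E n →L[ℝ] ℝ)) (x : E n) :
    DENS.moll η G x = ∫ s, η (x - s) • G s := by
  have h := integral_sub_left_eq_self (fun s => η (x - s) • G s) (volume : Measure (E n)) x
  rw [← h]
  unfold DENS.moll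
  refine integral_congr_ae (Eventually.of_forall fun t => ?_)
  show η t • G (x - t) = η (x - (x - t)) • G (x - t)
  rw [sub_sub_cancel]

/-- the mollification of a bounded function is Lipschitz -/
theorem moll_lip {η : E n → ℝ} {L : NNReal} (hη : LipschitzWith L η) (hs : ∀ t, 1 < ‖t‖ → η t = 0)
    {G : E n → (E n →L[ℝ] ℝ)} (hG : AEStronglyMeasurable G) {K : ℝ} (hK : ∀ x, ‖G x‖ ≤ K) :
    ∃ B : ℝ, 0 ≤ B ∧ ∀ x y, ‖DENS.moll η G x - DENS.moll η G y‖ ≤ B * ‖x - y‖ := by
  have hK0 : 0 ≤ K := (norm_nonneg _).trans (hK 0)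
  have hηc : Continuous η := hη.continuous
  have hcs : ∀ x : E n, HasCompactSupport (fun s => η (x - s)) := by
    intro x
    refine HasCompactSupport.intro (K := Metric.closedBall x 1) (isCompact_closedBall x 1) fun s hs' => ?_
    rw [Metric.mem_closedBall, dist_eq_norm] at hs'
    push Not at hs'
    exact hs (x - s) (by rwa [norm_sub_rev])
  have hηi : ∀ x : E n, Integrable (fun s => η (x - s)) := fun x =>
    (hηc.comp (continuous_const.sub continuous_id)).integrable_of_hasCompactSupport (hcs x)
  have hi : ∀ x : E n, Integrable (fun s => η (x - s) • G s) := by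
    intro x
    refine ((hηi x).norm.mul_const K).mono' ((hηc.comp (continuous_const.sub continuous_id)).aestronglyMeasurable.smul hG)
      (Eventually.of_forall fun s => ?_)
    rw [norm_smul]
    exact mul_le_mul_of_nonneg_left (hK s) (norm_nonneg _)
  set v : ℝ := (volume (Metric.closedBall (0 : E n) 1)).toReal with hv
  refine ⟨K * L * (v + v), by positivity, fun x y => ?_⟩
  rw [moll_eq, moll_eq, ← integral_sub (hi x) (hi y)]
  have hind : ∀ z : E n, Integrable ((Metric.closedBall z 1).indicator (fun _ : E n => (1 : ℝ))) := fun z =>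
    (integrable_indicator_iff Metric.isClosed_closedBall.measurableSet).2
      (integrableOn_const (isCompact_closedBall z 1).measure_lt_top.ne)
  have hval : ∀ z : E n, ∫ s, (Metric.closedBall z 1).indicator (fun _ : E n => (1 : ℝ)) s = v := by
    intro z
    rw [integral_indicator Metric.isClosed_closedBall.measurableSet]
    simp only [integral_const, smul_eq_mul, mul_one]
    rw [hv, measureReal_restrict_apply_univ]
    unfold Measure.real
    rw [Measure.addHaar_closedBall_center]
  calc ‖∫ s, (η (x - s) • G s - η (y - s) • G s)‖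
      ≤ ∫ s, (K * L * ‖x - y‖) * ((Metric.closedBall x 1).indicator (fun _ : E n => (1 : ℝ)) s +
          (Metric.closedBall y 1).indicator (fun _ : E n => (1 : ℝ)) s) := by
        refine norm_integral_le_of_norm_le (((hind x).add (hind y)).const_mul _) (Eventually.of_forall fun s => ?_)
        have esm : η (x - s) • G s - η (y - s) • G s = (η (x - s) - η (y - s)) • G s := by
          ext v
          show η (x - s) * G s v - η (y - s) * G s v = (η (x - s) - η (y - s)) * G s v
          ring
        rw [esm, norm_smul]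
        have hind0 : ∀ z : E n, 0 ≤ (Metric.closedBall z 1).indicator (fun _ : E n => (1 : ℝ)) s := fun z =>
          indicator_nonneg (fun _ _ => zero_le_one) s
        by_cases h0 : ‖x - s‖ ≤ 1 ∨ ‖y - s‖ ≤ 1
        · have h1 : (1 : ℝ) ≤ (Metric.closedBall x 1).indicator (fun _ : E n => (1 : ℝ)) s +
              (Metric.closedBall y 1).indicator (fun _ : E n => (1 : ℝ)) s := by
            rcases h0 with h0 | h0
            · have : s ∈ Metric.closedBall x 1 := by
                rw [Metric.mem_closedBall, dist_eq_norm, norm_sub_rev]; exact h0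
              rw [indicator_of_mem this]
              linarith [hind0 y]
            · have : s ∈ Metric.closedBall y 1 := by
                rw [Metric.mem_closedBall, dist_eq_norm, norm_sub_rev]; exact h0
              rw [indicator_of_mem (s := Metric.closedBall y 1) this]
              linarith [hind0 x]
          have h2 : ‖η (x - s) - η (y - s)‖ ≤ L * ‖x - y‖ := by
            have := hη.dist_le_mul (x - s) (y - s)
            rwa [dist_eq_norm, dist_eq_norm, sub_sub_sub_cancel_right] at this
          calc ‖η (x - s) - η (y - s)‖ * ‖G s‖ ≤ (L * ‖x - y‖) * K :=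
                mul_le_mul h2 (hK s) (norm_nonneg _) (by positivity)
            _ = (K * L * ‖x - y‖) * 1 := by ring
            _ ≤ _ := mul_le_mul_of_nonneg_left h1 (by positivity)
        · push Not at h0
          rw [hs _ h0.1, hs _ h0.2, sub_self, norm_zero, zero_mul]
          have := hind0 x
          have := hind0 y
          positivity
    _ = K * L * (v + v) * ‖x - y‖ := by
        rw [integral_const_mul, integral_add (hind x) (hind y), hval, hval]
        ring

theorem ker_zero (k : ℕ) (t : E n) (ht : 1 < ‖t‖) : DENS.ker (E n) k t = 0 := by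
  by_contra h
  have h1 := DENS.norm_le_of_ker_ne h
  have h2 : (1 : ℝ) / ((k : ℝ) + 1) ≤ 1 := by
    rw [div_le_one (by positivity)]
    have : (0 : ℝ) ≤ k := Nat.cast_nonneg k
    linarith
  linarith

theorem ker_lip (k : ℕ) : ∃ L : NNReal, LipschitzWith L (DENS.ker (E n) k) := by
  have h : ContDiff ℝ 1 (DENS.ker (E n) k) := (DENS.ker_smooth k).of_le (by norm_cast)
  obtain ⟨C, hC⟩ := h.lipschitzWith_of_hasCompactSupport (DENS.ker_supp k) (by norm_num)
  exact ⟨C, hC⟩

/-- **Brascamp-Lieb in the x-chart**, bounded Lipschitz `F` -/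
theorem gap {ψ V F : E n → ℝ} {c M K B0 : ℝ} (hc : 0 < c) (h2 : ContDiff ℝ 2 ψ)
    (hl : ∀ x v, c * ‖v‖ ^ 2 ≤ qf (hess ψ x) v)
    (hL : ∀ i j x y, |hess ψ x i j - hess ψ y i j| ≤ M * ‖x - y‖)
    (hma : ∀ x, V x = (∑ i, x i * pd i ψ x) - ψ x - Real.log (hess ψ x).det)
    (hVi : Integrable (fun x => Real.exp (-V x))) (hVc : Continuous V)
    (hF : ∀ x y, |F x - F y| ≤ K * ‖x - y‖) (hB0 : ∀ x, |F x| ≤ B0) :
    Ex V (fun x => F x ^ 2) - (Ex V F) ^ 2 ≤ Ex V (qq ψ F) := by
  set K1 : NNReal := K.toNNReal with hK1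
  have hFL : LipschitzWith K1 F := by
    refine LipschitzWith.of_dist_le_mul fun x y => ?_
    rw [Real.dist_eq, dist_eq_norm]
    exact (hF x y).trans (mul_le_mul_of_nonneg_right (Real.le_coe_toNNReal K) (norm_nonneg _))
  have hFc : Continuous F := hFL.continuous
  have hB00 : 0 ≤ B0 := (abs_nonneg _).trans (hB0 0)
  set Fk : ℕ → E n → ℝ := fun k => DENS.moll (DENS.ker (E n) k) F with hFk
  have hkc := fun k => DENS.ker_cont (E := E n) k
  have hks := fun k => DENS.ker_supp (E := E n) k
  have hk0 := fun k => DENS.ker_nonneg (E := E n) k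
  have hk1 := fun k => DENS.ker_integral (E := E n) k
  have hsm : ∀ k, ContDiff ℝ ∞ (Fk k) := fun k => DENS.contDiff_moll (DENS.ker_smooth k) (hks k) hFc.locallyIntegrable
  have hbd : ∀ k x, |Fk k x| ≤ B0 := fun k x => by
    rw [← Real.norm_eq_abs]
    exact DENS.norm_moll_le (hkc k) (hks k) (hk0 k) (hk1 k) (fun y => by rw [Real.norm_eq_abs]; exact hB0 y) x
  have hlip : ∀ k, LipschitzWith K1 (Fk k) := fun k =>
    DENS.lipschitz_moll (hkc k) (hks k) (hk0 k) (hk1 k) hFL
  have hfd : ∀ k x, ‖fderiv ℝ (Fk k) x‖ ≤ K1 := fun k x => norm_fderiv_le_of_lipschitz ℝ (hlip k)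
  have hfd0 : ∀ x, ‖fderiv ℝ F x‖ ≤ K1 := fun x => norm_fderiv_le_of_lipschitz ℝ hFL
  have hmain : ∀ k, Ex V (fun x => Fk k x ^ 2) - (Ex V (Fk k)) ^ 2 ≤ Ex V (qq ψ (Fk k)) := by
    intro k
    obtain ⟨L, hLk⟩ := ker_lip (n := n) k
    obtain ⟨B, hB, hBl⟩ := moll_lip hLk (ker_zero k) (G := fderiv ℝ F)
      (measurable_fderiv ℝ F).aestronglyMeasurable hfd0
    have hfe : fderiv ℝ (Fk k) = DENS.moll (DENS.ker (E n) k) (fderiv ℝ F) :=
      DENS.fderiv_moll_of_lipschitz (hkc k) (hks k) hFL
    have hdiff : Differentiable ℝ (Fk k) := (hsm k).differentiable (by simp)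
    refine gap_smooth hc h2 hl hL hma hVi hVc (K := K1) (B := B) (B0 := B0) K1.coe_nonneg hB
      ((hsm k).of_le (by norm_cast)) (hfd k) (fun x h => ?_) (fun x h => ?_) (hbd k)
    · have := (hlip k).dist_le_mul (x + h) x
      rwa [Real.dist_eq, dist_eq_norm, add_sub_cancel_left] at this
    · have h3 := (convex_closedBall x ‖h‖).norm_image_sub_le_of_norm_fderiv_le' (𝕜 := ℝ) (f := Fk k)
        (φ := fderiv ℝ (Fk k) x) (C := B * ‖h‖) (x := x) (y := x + h) (fun z _ => hdiff z)
        (fun z hz => by
          rw [hfe]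
          refine (hBl z x).trans (mul_le_mul_of_nonneg_left ?_ hB)
          rwa [Metric.mem_closedBall, dist_eq_norm] at hz)
        (Metric.mem_closedBall_self (norm_nonneg h))
        (by rw [Metric.mem_closedBall, dist_eq_norm, add_sub_cancel_left])
      rw [add_sub_cancel_left, Real.norm_eq_abs] at h3
      rw [pow_two, ← mul_assoc]
      exact h3
  -- limits
  have hexpc : Continuous fun x => Real.exp (-V x) := Real.continuous_exp.comp hVc.neg
  have hlim : ∀ (f : ℕ → E n → ℝ) (g : E n → ℝ) (S : ℝ), (∀ k, AEStronglyMeasurable (f k) volume) →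
      (∀ k x, |f k x| ≤ S) → (∀ᵐ x, Tendsto (fun k => f k x) atTop (𝓝 (g x))) →
      Tendsto (fun k => Ex V (f k)) atTop (𝓝 (Ex V g)) := by
    intro f g S hf hS hfg
    unfold Ex
    refine Tendsto.div_const ?_ _
    refine tendsto_integral_of_dominated_convergence (fun x => S * Real.exp (-V x))
      (fun k => (hf k).mul hexpc.aestronglyMeasurable) (hVi.const_mul S)
      (fun k => Eventually.of_forall fun x => ?_) ?_
    · rw [Real.norm_eq_abs, abs_mul, Real.abs_exp]
      exact mul_le_mul_of_nonneg_right (hS k x) (Real.exp_pos _).le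
    · filter_upwards [hfg] with x hx
      exact hx.mul_const _
  have hpt : ∀ x, Tendsto (fun k => Fk k x) atTop (𝓝 (F x)) := fun x => DENS.tendsto_moll_of_continuous hFc x
  have l1 : Tendsto (fun k => Ex V (fun x => Fk k x ^ 2)) atTop (𝓝 (Ex V (fun x => F x ^ 2))) :=
    hlim _ _ (B0 ^ 2) (fun k => ((hsm k).continuous.pow 2).aestronglyMeasurable)
      (fun k x => by rw [abs_pow]; exact pow_le_pow_left₀ (abs_nonneg _) (hbd k x) 2)
      (Eventually.of_forall fun x => (hpt x).pow 2)
  have l2 : Tendsto (fun k => Ex V (Fk k)) atTop (𝓝 (Ex V F)) :=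
    hlim _ _ B0 (fun k => (hsm k).continuous.aestronglyMeasurable) hbd (Eventually.of_forall hpt)
  have hmq : ∀ k, AEStronglyMeasurable (qq ψ (Fk k)) volume := by
    intro k
    refine Continuous.aestronglyMeasurable ?_
    have hpc : ∀ i, Continuous (pd i (Fk k)) := fun i => by
      unfold pd
      exact (((hsm k).of_le (m := 1) (by norm_cast)).continuous_fderiv (by norm_num)).clm_apply continuous_const
    unfold qq
    refine continuous_finsetSum _ fun i _ => continuous_finsetSum _ fun j _ => ?_
    exact ((tau_cont' hc h2 hl hL i j).mul (hpc i)).mul (hpc j)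
  have l3 : Tendsto (fun k => Ex V (qq ψ (Fk k))) atTop (𝓝 (Ex V (qq ψ F))) := by
    refine hlim _ _ ((n : ℝ) ^ 2 * (1 / c * K1 * K1)) hmq (fun k x => abs_qq_le hc h2 hl (hfd k) x) ?_
    filter_upwards [DENS.ae_tendsto_fderiv_moll hFL] with x hx
    have hpd : ∀ i, Tendsto (fun k => pd i (Fk k) x) atTop (𝓝 (pd i F x)) := fun i => by
      unfold pd
      exact ((ContinuousLinearMap.apply ℝ ℝ (ei i : E n)).continuous.tendsto _).comp hx
    unfold qq
    exact tendsto_finsetSum _ fun i _ => tendsto_finsetSum _ fun j _ =>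
      (tendsto_const_nhds.mul (hpd i)).mul (hpd j)
  exact le_of_tendsto_of_tendsto' (l1.sub (l2.pow 2)) l3 hmain

end Vale.Agent.P254.SL.Gap
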