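import Vale.Agent.P227.M.Defs

/-! # P227/M, StmtKey (helper652), part 1: Lipschitz calculus with compact supports.

`LC f`: Lipschitz with compact support; `BC f`: bounded, measurable, compact support;
`LM g`: multiplier. `int_pd`: `∫ ∂_a w = 0`; `nul`: `∫ ∂_aW ∂_eZ = ∫ ∂_eW ∂_aZ`. -/

open MeasureTheory Filter
open scoped Topology NNReal
open Vale.Agent.P227.M (E ei pd hess qf Reg Test)

namespace Vale.Agent.P254.SL.K652

variable {n : ℕ}

/-- Lipschitz with compact support -/
def LC (f : E n → ℝ) : Prop := (∃ K, LipschitzWith K f) ∧ HasCompactSupport f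

/-- bounded measurable with compact support -/
structure BC (f : E n → ℝ) : Prop where
  meas : Measurable f
  supp : HasCompactSupport f
  bdd : ∃ B, ∀ x, |f x| ≤ B

theorem BC.add {f g : E n → ℝ} (hf : BC f) (hg : BC g) : BC (fun x => f x + g x) := by
  obtain ⟨A, hA⟩ := hf.bdd
  obtain ⟨B, hB⟩ := hg.bdd
  exact ⟨hf.meas.add hg.meas, hf.supp.add hg.supp, A + B,
    fun x => (abs_add_le _ _).trans (add_le_add (hA x) (hB x))⟩

theorem BC.neg {f : E n → ℝ} (hf : BC f) : BC (fun x => -f x) := by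
  obtain ⟨A, hA⟩ := hf.bdd
  refine ⟨hf.meas.neg, ?_, A, fun x => by simpa using hA x⟩
  exact hf.supp.mono (fun x hx => by simpa using hx)

theorem BC.sub {f g : E n → ℝ} (hf : BC f) (hg : BC g) : BC (fun x => f x - g x) := by
  simpa [sub_eq_add_neg] using hf.add hg.neg

theorem BC.zero : BC (fun _ : E n => (0 : ℝ)) :=
  ⟨measurable_const, HasCompactSupport.zero, 0, by simp⟩

theorem BC.sum {ι : Type*} (s : Finset ι) {f : ι → E n → ℝ} (hf : ∀ i ∈ s, BC (f i)) :
    BC (fun x => ∑ i ∈ s, f i x) := by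
  classical
  induction s using Finset.induction_on with
  | empty => simpa using (BC.zero (n := n))
  | insert a s ha ih =>
    simp only [Finset.sum_insert ha]
    exact (hf a (Finset.mem_insert_self a s)).add (ih fun i hi => hf i (Finset.mem_insert_of_mem hi))

theorem BC.sum' {ι : Type*} [Fintype ι] {f : ι → E n → ℝ} (hf : ∀ i, BC (f i)) :
    BC (fun x => ∑ i, f i x) := BC.sum _ fun i _ => hf i

theorem BC.mul_cont {f g : E n → ℝ} (hf : BC f) (hg : Continuous g) : BC (fun x => f x * g x) := by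
  obtain ⟨A, hA⟩ := hf.bdd
  obtain ⟨B, hB⟩ := hf.supp.isCompact.exists_bound_of_continuousOn hg.continuousOn
  refine ⟨hf.meas.mul hg.measurable, hf.supp.mul_right, A * |B|, fun x => ?_⟩
  by_cases hx : x ∈ tsupport f
  · rw [abs_mul]
    exact mul_le_mul (hA x) ((hB x hx).trans (le_abs_self B)) (abs_nonneg _)
      ((abs_nonneg _).trans (hA x))
  · rw [image_eq_zero_of_notMem_tsupport hx, zero_mul, abs_zero]
    exact mul_nonneg ((abs_nonneg _).trans (hA x)) (abs_nonneg _)

/-- multiplication by a measurable bounded function -/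
theorem BC.mul_bdd {f g : E n → ℝ} (hf : BC f) (hg : Measurable g) (hb : ∃ B, ∀ x, |g x| ≤ B) :
    BC (fun x => f x * g x) := by
  obtain ⟨A, hA⟩ := hf.bdd
  obtain ⟨B, hB⟩ := hb
  refine ⟨hf.meas.mul hg, hf.supp.mul_right, A * B, fun x => ?_⟩
  rw [abs_mul]
  exact mul_le_mul (hA x) (hB x) (abs_nonneg _) ((abs_nonneg _).trans (hA x))

theorem BC.mul {f g : E n → ℝ} (hf : BC f) (hg : BC g) : BC (fun x => f x * g x) :=
  hf.mul_bdd hg.meas hg.bdd

theorem BC.integrable {f : E n → ℝ} (hf : BC f) : Integrable f := by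
  obtain ⟨A, hA⟩ := hf.bdd
  have h1 : IntegrableOn f (tsupport f) := by
    refine Measure.integrableOn_of_bounded (M := A) hf.supp.isCompact.measure_lt_top.ne
      hf.meas.aestronglyMeasurable ?_
    exact Eventually.of_forall fun x => hA x
  exact (integrableOn_iff_integrable_of_support_subset (subset_tsupport f)).1 h1

theorem LC.continuous {f : E n → ℝ} (hf : LC f) : Continuous f := by
  obtain ⟨⟨K, hK⟩, _⟩ := hf
  exact hK.continuous

theorem LC.bdd {f : E n → ℝ} (hf : LC f) : ∃ B, ∀ x, |f x| ≤ B := by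
  obtain ⟨C, hC⟩ := hf.2.exists_bound_of_continuous hf.continuous
  exact ⟨C, hC⟩

theorem LC.bc {f : E n → ℝ} (hf : LC f) : BC f :=
  ⟨hf.continuous.measurable, hf.2, hf.bdd⟩

theorem meas_pd (f : E n → ℝ) (a : Fin n) : Measurable (pd a f) :=
  measurable_fderiv_apply_const ℝ f (ei a)

theorem norm_ei (a : Fin n) : ‖(ei a : E n)‖ = 1 := by simp [ei]

theorem pd_bdd_of_lip {f : E n → ℝ} {K : ℝ≥0} (hf : LipschitzWith K f) (a : Fin n) (x : E n) :
    |pd a f x| ≤ K := by
  unfold pd
  have h1 := (fderiv ℝ f x).le_opNorm (ei a)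
  rw [norm_ei, mul_one] at h1
  exact (show |fderiv ℝ f x (ei a)| ≤ ‖fderiv ℝ f x‖ from h1).trans (norm_fderiv_le_of_lipschitz ℝ hf)

theorem LC.pd {f : E n → ℝ} (hf : LC f) (a : Fin n) : BC (pd a f) := by
  obtain ⟨⟨K, hK⟩, hs⟩ := hf
  exact ⟨meas_pd f a, hs.fderiv_apply ℝ (ei a), K, pd_bdd_of_lip hK a⟩

theorem LC.ae {f : E n → ℝ} (hf : LC f) : ∀ᵐ x, DifferentiableAt ℝ f x := by
  obtain ⟨⟨K, hK⟩, _⟩ := hf
  exact hK.ae_differentiableAt

/-- product of a compactly supported Lipschitz function with a bounded Lipschitz function -/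
theorem LC.mul_lip {f g : E n → ℝ} (hf : LC f) (hg : ∃ K, LipschitzWith K g)
    (hb : ∃ B, ∀ x, |g x| ≤ B) : LC (fun x => f x * g x) := by
  obtain ⟨A, hA⟩ := hf.bdd
  obtain ⟨⟨K, hK⟩, hs⟩ := hf
  obtain ⟨L, hL⟩ := hg
  obtain ⟨B, hB⟩ := hb
  have hA0 : 0 ≤ A := (abs_nonneg _).trans (hA 0)
  have hB0 : 0 ≤ B := (abs_nonneg _).trans (hB 0)
  refine ⟨⟨(A * L + B * K).toNNReal, ?_⟩, hs.mul_right⟩
  refine LipschitzWith.of_dist_le_mul fun x y => ?_
  rw [Real.coe_toNNReal _ (by positivity)]
  have h1 := hK.dist_le_mul x y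
  have h2 := hL.dist_le_mul x y
  rw [Real.dist_eq] at h1 h2 ⊢
  have e : f x * g x - f y * g y = f x * (g x - g y) + g y * (f x - f y) := by ring
  rw [e]
  calc |f x * (g x - g y) + g y * (f x - f y)| ≤ |f x| * |g x - g y| + |g y| * |f x - f y| := by
        rw [← abs_mul, ← abs_mul]; exact abs_add_le _ _
    _ ≤ A * (L * dist x y) + B * (K * dist x y) := by
        refine add_le_add (mul_le_mul (hA x) h2 (abs_nonneg _) hA0)
          (mul_le_mul (hB y) h1 (abs_nonneg _) hB0)
    _ = (A * L + B * K) * dist x y := by ring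

theorem LC.of_contDiff {f : E n → ℝ} (hf : ContDiff ℝ 1 f) (hs : HasCompactSupport f) : LC f :=
  ⟨ContDiff.lipschitzWith_of_hasCompactSupport hs hf (by simp), hs⟩

theorem LC.mul_c1 {f g : E n → ℝ} (hf : LC f) (hg : ContDiff ℝ 1 g) : LC (fun x => f x * g x) := by
  obtain ⟨R, hR⟩ := hf.2.isCompact.isBounded.subset_closedBall (0 : E n)
  let χ : ContDiffBump (0 : E n) := ⟨max R 1, max R 1 + 1, by positivity, by linarith⟩
  have h1 : ContDiff ℝ 1 (fun x => χ x * g x) := (χ.contDiff (n := 1)).mul hg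
  have h2 : HasCompactSupport (fun x => χ x * g x) := χ.hasCompactSupport.mul_right
  have h3 : LC (fun x => χ x * g x) := LC.of_contDiff h1 h2
  have h4 : (fun x => f x * g x) = fun x => f x * (χ x * g x) := by
    funext x
    by_cases hx : x ∈ tsupport f
    · have : χ x = 1 := χ.one_of_mem_closedBall
        (Metric.closedBall_subset_closedBall (le_max_left _ _) (hR hx))
      rw [this, one_mul]
    · rw [image_eq_zero_of_notMem_tsupport hx, zero_mul, zero_mul]
  rw [h4]
  exact hf.mul_lip h3.1 h3.bdd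

theorem LC.mul {f g : E n → ℝ} (hf : LC f) (hg : LC g) : LC (fun x => f x * g x) :=
  hf.mul_lip hg.1 hg.bdd

theorem LC.add {f g : E n → ℝ} (hf : LC f) (hg : LC g) : LC (fun x => f x + g x) := by
  obtain ⟨⟨K, hK⟩, hs⟩ := hf
  obtain ⟨⟨L, hL⟩, ht⟩ := hg
  exact ⟨⟨K + L, hK.add hL⟩, hs.add ht⟩

theorem LC.neg {f : E n → ℝ} (hf : LC f) : LC (fun x => -f x) := by
  obtain ⟨⟨K, hK⟩, hs⟩ := hf
  exact ⟨⟨K, hK.neg⟩, hs.mono (fun x hx => by simpa using hx)⟩

theorem LC.sub {f g : E n → ℝ} (hf : LC f) (hg : LC g) : LC (fun x => f x - g x) := by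
  simpa [sub_eq_add_neg] using hf.add hg.neg

theorem LC.zero : LC (fun _ : E n => (0 : ℝ)) :=
  ⟨⟨0, LipschitzWith.const 0⟩, HasCompactSupport.zero⟩

theorem LC.sum {ι : Type*} (s : Finset ι) {f : ι → E n → ℝ} (hf : ∀ i ∈ s, LC (f i)) :
    LC (fun x => ∑ i ∈ s, f i x) := by
  classical
  induction s using Finset.induction_on with
  | empty => simpa using (LC.zero (n := n))
  | insert a s ha ih =>
    simp only [Finset.sum_insert ha]
    exact (hf a (Finset.mem_insert_self a s)).add (ih fun i hi => hf i (Finset.mem_insert_of_mem hi))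

theorem LC.sum' {ι : Type*} [Fintype ι] {f : ι → E n → ℝ} (hf : ∀ i, LC (f i)) :
    LC (fun x => ∑ i, f i x) := LC.sum _ fun i _ => hf i

/-- multipliers: bounded Lipschitz functions and `C^1` functions -/
structure LM (g : E n → ℝ) : Prop where
  cont : Continuous g
  ae : ∀ᵐ x, DifferentiableAt ℝ g x
  mul : ∀ f, LC f → LC (fun x => f x * g x)
  mpd : ∀ f, BC f → ∀ a, BC (fun x => f x * pd a g x)

theorem LM.of_lip {g : E n → ℝ} (hg : ∃ K, LipschitzWith K g) (hb : ∃ B, ∀ x, |g x| ≤ B) :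
    LM g := by
  obtain ⟨K, hK⟩ := hg
  exact ⟨hK.continuous, hK.ae_differentiableAt, fun f hf => hf.mul_lip ⟨K, hK⟩ hb,
    fun f hf a => hf.mul_bdd (meas_pd g a) ⟨K, pd_bdd_of_lip hK a⟩⟩

theorem LM.of_c1 {g : E n → ℝ} (hg : ContDiff ℝ 1 g) : LM g :=
  ⟨hg.continuous, ae_of_all _ fun x => (hg.differentiable (by simp)) x, fun f hf => hf.mul_c1 hg,
    fun f hf a => hf.mul_cont ((hg.continuous_fderiv (by simp)).clm_apply continuous_const)⟩

theorem LC.lm {g : E n → ℝ} (hg : LC g) : LM g := LM.of_lip hg.1 hg.bdd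

theorem pd_mul {f g : E n → ℝ} {x : E n} (hf : DifferentiableAt ℝ f x) (hg : DifferentiableAt ℝ g x)
    (a : Fin n) : pd a (fun y => f y * g y) x = pd a f x * g x + f x * pd a g x := by
  unfold pd
  rw [fderiv_fun_mul hf hg]
  simp only [add_apply, smul_apply, smul_eq_mul]
  ring

theorem pd_sum {ι : Type*} (s : Finset ι) {f : ι → E n → ℝ} {x : E n}
    (hf : ∀ i ∈ s, DifferentiableAt ℝ (f i) x) (a : Fin n) :
    pd a (fun y => ∑ i ∈ s, f i y) x = ∑ i ∈ s, pd a (f i) x := by
  unfold pd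
  rw [fderiv_fun_sum hf]
  simp

theorem pd_add {f g : E n → ℝ} {x : E n} (hf : DifferentiableAt ℝ f x) (hg : DifferentiableAt ℝ g x)
    (a : Fin n) : pd a (fun y => f y + g y) x = pd a f x + pd a g x := by
  unfold pd
  rw [fderiv_fun_add hf hg]
  rfl

theorem pd_sub {f g : E n → ℝ} {x : E n} (hf : DifferentiableAt ℝ f x) (hg : DifferentiableAt ℝ g x)
    (a : Fin n) : pd a (fun y => f y - g y) x = pd a f x - pd a g x := by
  unfold pd
  rw [fderiv_fun_sub hf hg]
  rfl

theorem lineDeriv_ae {f : E n → ℝ} (hf : LC f) (a : Fin n) :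
    (fun x => lineDeriv ℝ f x (ei a)) =ᵐ[volume] pd a f := by
  filter_upwards [hf.ae] with x hx
  exact hx.lineDeriv_eq_fderiv

theorem lineDeriv_ae' {f : E n → ℝ} (hf : LC f) (a : Fin n) :
    (fun x => lineDeriv ℝ f x (-ei a)) =ᵐ[volume] fun x => -pd a f x := by
  filter_upwards [hf.ae] with x hx
  rw [hx.lineDeriv_eq_fderiv, map_neg]
  rfl

/-- integration by parts for Lipschitz functions with compact support -/
theorem ibp0 {f g : E n → ℝ} (hf : LC f) (hg : LC g) (a : Fin n) :
    ∫ x, pd a f x * g x = -∫ x, pd a g x * f x := by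
  obtain ⟨K, hK⟩ := hf.1
  obtain ⟨L, hL⟩ := hg.1
  have h := LipschitzWith.integral_lineDeriv_mul_eq (μ := volume) hK hL hg.2 (ei a)
  have e1 : ∫ x, lineDeriv ℝ f x (ei a) * g x = ∫ x, pd a f x * g x := by
    refine integral_congr_ae ?_
    filter_upwards [lineDeriv_ae hf a] with x hx
    rw [hx]
  have e2 : ∫ x, lineDeriv ℝ g x (-ei a) * f x = ∫ x, -(pd a g x * f x) := by
    refine integral_congr_ae ?_
    filter_upwards [lineDeriv_ae' hg a] with x hx
    rw [hx, neg_mul]
  rw [e1, e2, integral_neg] at h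
  exact h

/-- the divergence of a compactly supported Lipschitz field has integral `0` -/
theorem int_pd {w : E n → ℝ} (hw : LC w) (a : Fin n) : ∫ x, pd a w x = 0 := by
  obtain ⟨R, hR⟩ := hw.2.isCompact.isBounded.subset_closedBall (0 : E n)
  let χ : ContDiffBump (0 : E n) := ⟨max R 1 + 1, max R 1 + 2, by positivity, by linarith⟩
  have hχ : LC (fun x => χ x) := LC.of_contDiff χ.contDiff χ.hasCompactSupport
  have h := ibp0 hw hχ a
  have hsub : ∀ x ∈ tsupport w, χ =ᶠ[𝓝 x] fun _ => (1 : ℝ) := by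
    intro x hx
    have : x ∈ Metric.ball (0 : E n) (max R 1 + 1) := by
      have := hR hx
      rw [Metric.mem_closedBall] at this
      rw [Metric.mem_ball]
      linarith [le_max_left R 1]
    exact χ.eventuallyEq_one_of_mem_ball this
  have e1 : ∫ x, pd a w x * χ x = ∫ x, pd a w x := by
    refine integral_congr_ae (ae_of_all _ fun x => ?_)
    by_cases hx : x ∈ tsupport w
    · simp only [(hsub x hx).self_of_nhds, mul_one]
    · have : pd a w x = 0 := by
        have := (tsupport_fderiv_apply_subset ℝ (ei a) (f := w))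
        exact image_eq_zero_of_notMem_tsupport (fun h => hx (this h))
      simp only [this, zero_mul]
  have e2 : ∫ x, pd a (fun x => χ x) x * w x = 0 := by
    rw [integral_eq_zero_of_ae]
    refine ae_of_all _ fun x => ?_
    by_cases hx : x ∈ tsupport w
    · have : pd a (fun x => χ x) x = 0 := by
        unfold pd
        rw [(show (fun x => χ x) =ᶠ[𝓝 x] fun _ => (1 : ℝ) from hsub x hx).fderiv_eq]
        simp
      simp [this]
    · simp [image_eq_zero_of_notMem_tsupport hx]
  rw [e1, e2] at h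
  simpa using h

theorem LC.trans {f : E n → ℝ} (hf : LC f) (v : E n) : LC (fun x => f (x + v)) := by
  obtain ⟨⟨K, hK⟩, hs⟩ := hf
  refine ⟨⟨K, ?_⟩, hs.comp_homeomorph (Homeomorph.addRight v)⟩
  have h : LipschitzWith 1 (fun x : E n => x + v) := LipschitzWith.of_dist_le_mul fun x y => by simp
  have h2 := hK.comp h
  rw [mul_one] at h2
  exact h2

theorem pd_trans (f : E n → ℝ) (v : E n) (a : Fin n) (x : E n) :
    pd a (fun y => f (y + v)) x = pd a f (x + v) := by
  unfold pd
  rw [fderiv_comp_add_right]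

/-- null Lagrangian: difference quotients, no mollification -/
theorem nul {W Z : E n → ℝ} (hW : LC W) (hZ : LC Z) (a e : Fin n) :
    ∫ x, pd a W x * pd e Z x = ∫ x, pd e W x * pd a Z x := by
  obtain ⟨K, hK⟩ := hW.1
  obtain ⟨L, hL⟩ := hZ.1
  set v : E n := ei e with hv
  have A := LipschitzWith.integral_inv_smul_sub_mul_tendsto_integral_lineDeriv_mul (μ := volume)
    hL (hW.pd a).integrable v
  have B := LipschitzWith.integral_inv_smul_sub_mul_tendsto_integral_lineDeriv_mul (μ := volume)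
    hK (hZ.pd a).integrable (-v)
  have key : ∀ t : ℝ, ∫ x, (t⁻¹ • (Z (x + t • v) - Z x)) * pd a W x =
      -∫ x, (t⁻¹ • (W (x + t • (-v)) - W x)) * pd a Z x := by
    intro t
    have hZt : LC (fun x => Z (x + t • v)) := hZ.trans _
    have hWt : LC (fun x => W (x + t • (-v))) := hW.trans _
    have h1 := ibp0 hW (hZt.sub hZ) a
    have h2 : ∫ x, pd a (fun x => Z (x + t • v) - Z x) x * W x =
        ∫ x, (pd a Z (x + t • v) * W x - pd a Z x * W x) := by
      refine integral_congr_ae ?_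
      filter_upwards [hZt.ae, hZ.ae] with x hx1 hx2
      rw [pd_sub hx1 hx2, pd_trans, sub_mul]
    have i1 : Integrable (fun x => pd a Z (x + t • v) * W x) := by
      have h := ((hZt.pd a).mul hW.bc).integrable
      refine h.congr (ae_of_all _ fun x => ?_)
      simp only [pd_trans]
    have i2 : Integrable (fun x => pd a Z x * W x) := ((hZ.pd a).mul hW.bc).integrable
    have i3 : Integrable (fun x => pd a Z x * W (x + t • (-v))) := ((hZ.pd a).mul hWt.bc).integrable
    have h3 : ∫ x, pd a Z (x + t • v) * W x = ∫ x, pd a Z x * W (x + t • (-v)) := by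
      rw [← integral_add_right_eq_self _ (t • (-v))]
      refine integral_congr_ae (ae_of_all _ fun x => ?_)
      simp
    rw [h2, integral_sub i1 i2, h3] at h1
    simp only [smul_eq_mul, mul_assoc, integral_const_mul]
    have h4 : ∫ x, (Z (x + t • v) - Z x) * pd a W x = ∫ x, pd a W x * (Z (x + t • v) - Z x) :=
      integral_congr_ae (ae_of_all _ fun x => mul_comm _ _)
    have h5 : ∫ x, (W (x + t • (-v)) - W x) * pd a Z x =
        (∫ x, pd a Z x * W (x + t • (-v))) - ∫ x, pd a Z x * W x := by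
      rw [← integral_sub i3 i2]
      refine integral_congr_ae (ae_of_all _ fun x => ?_)
      simp only
      ring
    rw [h4, h1, h5]
    ring
  simp only [key] at A
  have C := tendsto_nhds_unique A B.neg
  have e1 : ∫ x, lineDeriv ℝ Z x v * pd a W x = ∫ x, pd a W x * pd e Z x := by
    refine integral_congr_ae ?_
    filter_upwards [lineDeriv_ae hZ e] with x hx
    rw [hv, hx, mul_comm]
  have e2 : ∫ x, lineDeriv ℝ W x (-v) * pd a Z x = -∫ x, pd e W x * pd a Z x := by
    rw [← integral_neg]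
    refine integral_congr_ae ?_
    filter_upwards [lineDeriv_ae' hW e] with x hx
    rw [hv, hx, neg_mul]
  rw [e1, e2, neg_neg] at C
  exact C

/-- weighted integral -/
noncomputable def I (V : E n → ℝ) (f : E n → ℝ) : ℝ := ∫ x, f x * Real.exp (-V x)

section weighted

variable {V : E n → ℝ}

theorem bc_w (hV : ContDiff ℝ 1 V) {f : E n → ℝ} (hf : BC f) :
    Integrable (fun x => f x * Real.exp (-V x)) :=
  (hf.mul_cont (by have := hV.continuous; fun_prop)).integrable

theorem I_add (hV : ContDiff ℝ 1 V) {f g : E n → ℝ} (hf : BC f) (hg : BC g) :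
    I V (fun x => f x + g x) = I V f + I V g := by
  unfold I
  rw [← integral_add (bc_w hV hf) (bc_w hV hg)]
  exact integral_congr_ae (ae_of_all _ fun x => by simp only [add_mul])

theorem I_sub (hV : ContDiff ℝ 1 V) {f g : E n → ℝ} (hf : BC f) (hg : BC g) :
    I V (fun x => f x - g x) = I V f - I V g := by
  unfold I
  rw [← integral_sub (bc_w hV hf) (bc_w hV hg)]
  exact integral_congr_ae (ae_of_all _ fun x => by simp only [sub_mul])

theorem I_neg {f : E n → ℝ} : I V (fun x => -f x) = -I V f := by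
  unfold I
  rw [← integral_neg]
  exact integral_congr_ae (ae_of_all _ fun x => by simp only [neg_mul])

theorem I_sum (hV : ContDiff ℝ 1 V) {ι : Type*} (s : Finset ι) {f : ι → E n → ℝ}
    (hf : ∀ i ∈ s, BC (f i)) : I V (fun x => ∑ i ∈ s, f i x) = ∑ i ∈ s, I V (f i) := by
  unfold I
  rw [← integral_finset_sum s fun i hi => bc_w hV (hf i hi)]
  exact integral_congr_ae (ae_of_all _ fun x => by simp only [Finset.sum_mul])

theorem I_congr {f g : E n → ℝ} (h : f =ᵐ[volume] g) : I V f = I V g := by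
  unfold I
  refine integral_congr_ae ?_
  filter_upwards [h] with x hx
  rw [hx]

theorem I_mono (hV : ContDiff ℝ 1 V) {f g : E n → ℝ} (hf : BC f) (hg : BC g)
    (h : ∀ᵐ x, f x ≤ g x) : I V f ≤ I V g := by
  unfold I
  refine integral_mono_ae (bc_w hV hf) (bc_w hV hg) ?_
  filter_upwards [h] with x hx
  exact mul_le_mul_of_nonneg_right hx (Real.exp_pos _).le

theorem I_nonneg {f : E n → ℝ} (h : ∀ᵐ x, 0 ≤ f x) : 0 ≤ I V f := by
  unfold I
  refine integral_nonneg_of_ae ?_
  filter_upwards [h] with x hx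
  exact mul_nonneg hx (Real.exp_pos _).le

theorem c1_exp (hV : ContDiff ℝ 1 V) : ContDiff ℝ 1 (fun x => Real.exp (-V x)) := hV.neg.exp

theorem pd_exp (hV : ContDiff ℝ 1 V) (a : Fin n) (x : E n) :
    pd a (fun x => Real.exp (-V x)) x = -pd a V x * Real.exp (-V x) := by
  have h : DifferentiableAt ℝ V x := (hV.differentiable (by simp)) x
  unfold pd
  rw [fderiv_exp h.fun_neg, fderiv_fun_neg]
  simp [mul_comm]

/-- `E f ∂_a g = E (V_a f - ∂_a f) g` -/
theorem ibp_d (hV : ContDiff ℝ 1 V) {f g : E n → ℝ} (hf : LC f) (hg : LM g) (a : Fin n) :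
    I V (fun x => f x * pd a g x) = I V (fun x => (pd a V x * f x - pd a f x) * g x) := by
  have hw : LC (fun x => (f x * g x) * Real.exp (-V x)) := (hg.mul f hf).mul_c1 (c1_exp hV)
  have h := int_pd hw a
  have hVa : Continuous (pd a V) := (hV.continuous_fderiv (by simp)).clm_apply continuous_const
  have b1 : BC (fun x => f x * pd a g x) := hg.mpd f hf.bc a
  have b2 : BC (fun x => (pd a V x * f x - pd a f x) * g x) := by
    refine BC.mul_cont (BC.sub ?_ (hf.pd a)) hg.cont
    have := hf.bc.mul_cont hVa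
    simpa only [mul_comm] using this
  have e : ∫ x, pd a (fun x => (f x * g x) * Real.exp (-V x)) x =
      ∫ x, (f x * pd a g x * Real.exp (-V x) -
        (pd a V x * f x - pd a f x) * g x * Real.exp (-V x)) := by
    refine integral_congr_ae ?_
    filter_upwards [hf.ae, hg.ae] with x h1 h2
    have h3 : DifferentiableAt ℝ (fun x => Real.exp (-V x)) x :=
      ((c1_exp hV).differentiable (by simp)) x
    rw [pd_mul (h1.fun_mul h2) h3, pd_mul h1 h2, pd_exp hV]
    ring
  rw [e, integral_sub (bc_w hV b1) (bc_w hV b2)] at h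
  unfold I
  linarith

/-- weighted null Lagrangian with a multiplier:
`E ∂_aW (V_e Z - ∂_e Z) = E ∂_eW (V_a Z - ∂_a Z)` -/
theorem nul_w (hV : ContDiff ℝ 1 V) {W Z : E n → ℝ} (hW : LC W) (hZ : LC Z) (a e : Fin n) :
    I V (fun x => pd a W x * (pd e V x * Z x - pd e Z x)) =
      I V (fun x => pd e W x * (pd a V x * Z x - pd a Z x)) := by
  have hw : LC (fun x => Z x * Real.exp (-V x)) := hZ.mul_c1 (c1_exp hV)
  have h := nul hW hw a e
  have q : ∀ b c : Fin n, ∫ x, pd b W x * pd c (fun x => Z x * Real.exp (-V x)) x =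
      - I V (fun x => pd b W x * (pd c V x * Z x - pd c Z x)) := by
    intro b c
    unfold I
    rw [← integral_neg]
    refine integral_congr_ae ?_
    filter_upwards [hZ.ae] with x h1
    have h3 : DifferentiableAt ℝ (fun x => Real.exp (-V x)) x :=
      ((c1_exp hV).differentiable (by simp)) x
    rw [pd_mul h1 h3, pd_exp hV]
    ring
  rw [q, q] at h
  linarith

end weighted

end Vale.Agent.P254.SL.K652
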