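import Vale.Agent.P254.SL.Cut652

/-! # P254/SL, S2b (helper652): the static inequality `2 N1 ≤ E tr(WτWτ) - E tr(WτWτHτ)`. -/

open MeasureTheory Filter
open scoped Topology NNReal
open Vale.Agent.P227.M (E ei pd hess qf Reg Test)

namespace Vale.Agent.P254.SL.K652

variable {n : ℕ} {V : E n → ℝ} {τ : E n → Matrix (Fin n) (Fin n) ℝ}

/-- `Σ_b ∂_bτ_ai D_bτ_ia` -/
noncomputable def n1 (τ : E n → Matrix (Fin n) (Fin n) ℝ) (a i : Fin n) (x : E n) : ℝ :=
  ∑ b, pd b (fun y => τ y a i) x * D τ b (fun y => τ y i a) x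

/-- `τ_ai Σ_bc ∂_bτ_ic ∂_cτ_ab` -/
noncomputable def n2 (τ : E n → Matrix (Fin n) (Fin n) ℝ) (a i : Fin n) (x : E n) : ℝ :=
  τ x a i * ∑ b, ∑ c, pd b (fun y => τ y i c) x * pd c (fun y => τ y a b) x

/-- `τ_ai Σ_bc V_bc τ_ab τ_ic` -/
noncomputable def hh (V : E n → ℝ) (τ : E n → Matrix (Fin n) (Fin n) ℝ) (a i : Fin n) (x : E n) : ℝ :=
  τ x a i * ∑ b, ∑ c, pd b (pd c V) x * τ x a b * τ x i c

theorem bmD (h : Dat V τ) {f : E n → ℝ} (hf : BL f) (b : Fin n) : BM (D τ b f) := by
  unfold D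
  exact BM.sum' fun e => (h.bl b e).bm.mul (hf.bm_pd e)

theorem bm_n1 (h : Dat V τ) (a i : Fin n) : BM (n1 τ a i) := by
  unfold n1
  exact BM.sum' fun b => ((h.bl a i).bm_pd b).mul (bmD h (h.bl i a) b)

theorem bm_n2 (h : Dat V τ) (a i : Fin n) : BM (n2 τ a i) := by
  unfold n2
  exact (h.bl a i).bm.mul (BM.sum' fun b => BM.sum' fun c =>
    ((h.bl i c).bm_pd b).mul ((h.bl a b).bm_pd c))

theorem bm_hh (h : Dat V τ) (hH : ∀ a b, ∃ B, ∀ x, |pd a (pd b V) x| ≤ B) (a i : Fin n) :
    BM (hh V τ a i) := by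
  unfold hh
  have hV : ∀ b c, BM (pd b (pd c V)) := fun b c =>
    ⟨(smooth_pd (smooth_pd h.hV c) b).continuous.measurable, hH b c⟩
  exact (h.bl a i).bm.mul (BM.sum' fun b => BM.sum' fun c =>
    ((hV b c).mul (h.bl a b).bm).mul (h.bl i c).bm)

/-- (K2) -/
theorem Dat.K2 (h : Dat V τ) (hH : ∀ a b, ∃ B, ∀ x, |pd a (pd b V) x| ≤ B)
    (hi : Integrable (fun x => Real.exp (-V x))) (a i : Fin n) :
    I V (hh V τ a i) = I V (fun x => τ x a i * τ x i a) - I V (n2 τ a i) - I V (n1 τ a i) := by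
  have hc := h.c1
  have hg : ∀ m, LC (fun x => cut m x * τ x a i) := fun m => (cut_lc m).blm (h.bl a i)
  have bD : ∀ b, BM (fun x => τ x a i * D τ b (fun y => τ y i a) x) := fun b =>
    (h.bl a i).bm.mul (bmD h (h.bl i a) b)
  have k : ∀ m, I V (fun x => cut m x * hh V τ a i x) =
      I V (fun x => cut m x * (τ x a i * τ x i a)) - I V (fun x => cut m x * n2 τ a i x)
      - (I V (fun x => cut m x * n1 τ a i x) +
        ∑ b, I V (fun x => pd b (cut m) x * (τ x a i * D τ b (fun y => τ y i a) x))) := by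
    intro m
    have key := h.K1 (hg m) a i
    have e1 : I V (fun x => ∑ b, ∑ c, pd b (pd c V) x * τ x a b * (cut m x * τ x a i * τ x i c)) =
        I V (fun x => cut m x * hh V τ a i x) := by
      refine I_congr (ae_of_all _ fun x => ?_)
      simp only [hh, Finset.mul_sum]
      exact Finset.sum_congr rfl fun b _ => Finset.sum_congr rfl fun c _ => by ring
    have e2 : I V (fun x => cut m x * τ x a i * τ x i a) =
        I V (fun x => cut m x * (τ x a i * τ x i a)) :=
      I_congr (ae_of_all _ fun x => by ring)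
    have e3 : I V (fun x => cut m x * τ x a i *
        ∑ b, ∑ c, pd b (fun y => τ y i c) x * pd c (fun y => τ y a b) x) =
        I V (fun x => cut m x * n2 τ a i x) :=
      I_congr (ae_of_all _ fun x => by simp only [n2]; ring)
    have b1 : BC (fun x => cut m x * n1 τ a i x) :=
      (cut_lc m).bc.mul_bdd (bm_n1 h a i).1 (bm_n1 h a i).2
    have b2 : ∀ b, BC (fun x => pd b (cut m) x * (τ x a i * D τ b (fun y => τ y i a) x)) :=
      fun b => ((cut_lc m).pd b).mul_bdd (bD b).1 (bD b).2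
    have e4 : I V (fun x => ∑ b, pd b (fun y => cut m y * τ y a i) x *
        D τ b (fun y => τ y i a) x) = I V (fun x => cut m x * n1 τ a i x) +
        ∑ b, I V (fun x => pd b (cut m) x * (τ x a i * D τ b (fun y => τ y i a) x)) := by
      rw [← I_sum1 hc b2, ← I_add hc b1 (BC.sum' b2)]
      refine I_congr ?_
      filter_upwards [h.gd, (cut_lc m).ae] with x h1 h2
      simp only [n1]
      rw [Finset.mul_sum, ← Finset.sum_add_distrib]
      refine Finset.sum_congr rfl fun b _ => ?_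
      rw [pd_mul h2 (h1 a i)]
      ring
    rw [e1, e2, e3, e4] at key
    exact key
  have t1 := tendsto_cut hi (bm_hh h hH a i)
  have t2 := tendsto_cut hi ((h.bl a i).bm.mul (h.bl i a).bm)
  have t3 := tendsto_cut hi (bm_n2 h a i)
  have t4 := tendsto_cut hi (bm_n1 h a i)
  have t5 : Tendsto (fun m => ∑ b, I V (fun x => pd b (cut m) x *
      (τ x a i * D τ b (fun y => τ y i a) x))) atTop (𝓝 0) := by
    have := tendsto_finsetSum Finset.univ fun b (_ : b ∈ Finset.univ) => tendsto_cut_pd hi (bD b) b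
    simpa using this
  have t6 := (t2.sub t3).sub (t4.add t5)
  have := tendsto_nhds_unique t1 (t6.congr fun m => (k m).symm)
  rw [this, add_zero]

theorem IM_add (hi : Integrable (fun x => Real.exp (-V x))) {f g : E n → ℝ} (hf : BM f)
    (hg : BM g) : I V (fun x => f x + g x) = I V f + I V g := by
  unfold I
  rw [← integral_add (hf.int hi) (hg.int hi)]
  exact integral_congr_ae (ae_of_all _ fun x => by simp only [add_mul])

theorem IM_sum (hi : Integrable (fun x => Real.exp (-V x))) {ι : Type*} (s : Finset ι)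
    {f : ι → E n → ℝ} (hf : ∀ i ∈ s, BM (f i)) :
    I V (fun x => ∑ i ∈ s, f i x) = ∑ i ∈ s, I V (f i) := by
  unfold I
  rw [← integral_finsetSum s fun i hi' => (hf i hi').int hi]
  exact integral_congr_ae (ae_of_all _ fun x => by simp only [Finset.sum_mul])

theorem IM_smul (c : ℝ) (f : E n → ℝ) : I V (fun x => c * f x) = c * I V f := by
  unfold I
  rw [← integral_const_mul]
  exact integral_congr_ae (ae_of_all _ fun x => by ring)

theorem IM_sumw (hi : Integrable (fun x => Real.exp (-V x))) (w : Fin n → ℝ)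
    {f : Fin n → Fin n → E n → ℝ} (hf : ∀ a i, BM (f a i)) :
    I V (fun x => ∑ a, ∑ i, w a * w i * f a i x) = ∑ a, ∑ i, w a * w i * I V (f a i) := by
  have hb : ∀ a i, BM (fun x => w a * w i * f a i x) := fun a i => (BM.const _).mul (hf a i)
  rw [IM_sum hi _ fun a _ => BM.sum' (hb a)]
  refine Finset.sum_congr rfl fun a _ => ?_
  rw [IM_sum hi _ fun i _ => hb a i]
  exact Finset.sum_congr rfl fun i _ => IM_smul _ _

/-- pointwise `Σ w_a w_i n1_ai ≤ Σ w_a w_i n2_ai` -/
theorem Dat.n1_le_n2 (h : Dat V τ) (w : Fin n → ℝ) :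
    ∀ᵐ x, ∑ a, ∑ i, w a * w i * n1 τ a i x ≤ ∑ a, ∑ i, w a * w i * n2 τ a i x := by
  filter_upwards [h.sy] with x hx
  obtain ⟨G, Gi, g1, g2, g3⟩ := h.fac x
  have hs : ∀ i j, (fun y => τ y i j) = fun y => τ y j i := by
    intro i j
    funext y
    rw [← Matrix.transpose_apply (τ y) j i, h.symm y]
  have ht : ∀ e, (Matrix.of fun b c => pd e (fun y => τ y b c) x).transpose =
      Matrix.of fun b c => pd e (fun y => τ y b c) x := by
    intro e
    ext i j
    change pd e (fun y => τ y j i) x = pd e (fun y => τ y i j) x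
    rw [hs j i]
  have key := sos (t := fun e => Matrix.of fun b c => pd e (fun y => τ y b c) x) g1 g2 g3 ht hx w
  have hs' : ∀ a i, τ x i a = τ x a i := fun a i => congrFun (hs i a) x
  simp only [hs' _ _] at key
  exact key

/-- the static inequality, weighted form -/
theorem Dat.static (h : Dat V τ) (hH : ∀ a b, ∃ B, ∀ x, |pd a (pd b V) x| ≤ B)
    (hi : Integrable (fun x => Real.exp (-V x))) (w : Fin n → ℝ) :
    2 * ∑ a, ∑ i, w a * w i * I V (n1 τ a i) ≤
      ∑ a, ∑ i, w a * w i * I V (fun x => τ x a i * τ x i a)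
      - ∑ a, ∑ i, w a * w i * I V (hh V τ a i) := by
  have k := fun a i => h.K2 hH hi a i
  have le : ∑ a, ∑ i, w a * w i * I V (n1 τ a i) ≤ ∑ a, ∑ i, w a * w i * I V (n2 τ a i) := by
    rw [← IM_sumw hi w (bm_n1 h), ← IM_sumw hi w (bm_n2 h)]
    unfold I
    refine integral_mono_ae ?_ ?_ ?_
    · exact (BM.sum' fun a => BM.sum' fun i => (BM.const _).mul (bm_n1 h a i)).int hi
    · exact (BM.sum' fun a => BM.sum' fun i => (BM.const _).mul (bm_n2 h a i)).int hi
    · filter_upwards [h.n1_le_n2 w] with x hx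
      exact mul_le_mul_of_nonneg_right hx (Real.exp_pos _).le
  have e : ∑ a, ∑ i, w a * w i * I V (hh V τ a i) =
      ∑ a, ∑ i, w a * w i * I V (fun x => τ x a i * τ x i a)
      - ∑ a, ∑ i, w a * w i * I V (n2 τ a i) - ∑ a, ∑ i, w a * w i * I V (n1 τ a i) := by
    rw [← Finset.sum_sub_distrib, ← Finset.sum_sub_distrib]
    refine Finset.sum_congr rfl fun a _ => ?_
    rw [← Finset.sum_sub_distrib, ← Finset.sum_sub_distrib]
    exact Finset.sum_congr rfl fun i _ => by rw [k]; ring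
  rw [e]
  linarith

end Vale.Agent.P254.SL.K652
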